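import Vale.Agent.P072.Potential

/-! P072: analysis of near maximisers of the score. -/

namespace Vale.Agent.P072

open Finset

noncomputable section

variable {n : ℕ}

def Aconst (V : Finset (Fin n → ℤ)) (K : ℝ) : ℝ :=
  n * (2 + (8 + 2 * K) * Pbd V ^ n) + 2 * n + 2

def gam (V : Finset (Fin n → ℤ)) (K : ℝ) : ℝ := 4 * Aconst V K + 1

def base (V : Finset (Fin n → ℤ)) (K : ℝ) : ℝ := 4 * (gam V K + 1) + K

lemma Aconst_ge (V : Finset (Fin n → ℤ)) {K : ℝ} (hK : 0 ≤ K) :
    2 * (n : ℝ) + 2 ≤ Aconst V K := by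
  have h : 0 ≤ Pbd V ^ n := pow_nonneg (zero_le_one.trans one_le_Pbd) _
  unfold Aconst
  have : 0 ≤ (n : ℝ) * (2 + (8 + 2 * K) * Pbd V ^ n) := by positivity
  linarith

lemma gam_ge (V : Finset (Fin n → ℤ)) {K : ℝ} (hK : 0 ≤ K) :
    8 * (n : ℝ) + 9 ≤ gam V K := by
  have := Aconst_ge V hK; unfold gam; linarith

lemma growth {A y : ℝ} (hA : 1 ≤ A) (hy : 4 * A + 1 < y) : A * (y + 1) < Real.exp y := by
  have h := Real.quadratic_le_exp_of_nonneg (by linarith : 0 ≤ y)
  have h1 : A * (y + 1) ≤ A * (2 * y) := by gcongr; linarith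
  nlinarith

lemma choice (V : Finset (Fin n → ℤ)) {e₀ : ℝ} (he : 1 ≤ e₀) {u q : Fin n → ℝ}
    (hu : Antitone u) (hq : Valid V e₀ q) (k : Fin n) {γ e X τ : ℝ}
    (hee : e = err V e₀ q k) (hX : X = Xw V k e) (hτ : τ = u k + e - γ)
    (hγ : 1 ≤ γ) (hγe : 4 * γ ≤ e)
    (hprev : ∀ i : Fin n, i < k → |q i - u i| ≤ e) :
    ∃ c, Valid V e₀ (tail q k c) ∧
      c - bias V e₀ (tail q k c) k ≤ u k - γ ∧ u k - X ≤ c ∧
      (¬ Snap V q k → c - 1 ≤ q k → τ - 1 ≤ q k) := by
  subst hee
  set e := err V e₀ q k with hee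
  have hXe : 16 * e ≤ X := hX ▸ le_Xw (by linarith) k
  have herr : ∀ c, err V e₀ (tail q k c) k = e := fun c =>
    err_congr _ fun i hi => tail_lt hi
  have hdot : ∀ (c c' : ℝ), ∀ d ∈ Cset V ((k : ℕ) + 1),
      dot d (tail q k c) - dot d (tail q k c') = d k * (c - c') := by
    intro c c' d hd
    unfold dot
    rw [← sum_sub_distrib, sum_eq_single k]
    · rw [tail_ge le_rfl, tail_ge le_rfl]; ring
    · intro i _ hi
      rcases lt_or_gt_of_ne (fun h : (i : ℕ) = k => hi (Fin.ext h)) with h | h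
      · rw [tail_lt h, tail_lt h]; ring
      · simp [Cset_supp V k.2 d hd i (by omega)]
    · simp
  have hdotq : ∀ c, ∀ d ∈ Cset V ((k : ℕ) + 1),
      dot d q = dot d (tail q k c) + d k * (q k - c) := by
    intro c d hd
    have h1 : dot d q = dot d (tail q k (q k)) := by
      refine dot_congr k.2 (fun i hi => ?_) hd
      rcases Nat.lt_succ_iff_lt_or_eq.1 hi with h | h
      · rw [tail_lt h]
      · rw [tail_ge (by omega), Fin.ext h]
    have := hdot (q k) c d hd; linarith
  have hbX : ∀ c, Snap V (tail q k c) k → bias V e₀ (tail q k c) k = X := by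
    intro c hs; rw [bias, if_pos hs, herr, hX]
  have htie : ∀ p : Fin n, (p : ℕ) + 1 = k →
      tieVec p k ∈ Cset V ((k : ℕ) + 1) ∧ tieVec p k k = -1 := by
    intro p hp
    have hne : k ≠ p := by intro h; rw [h] at hp; omega
    exact ⟨tie_mem V hp k.2 (by omega), by simp [tieVec, hne]⟩
  have htsnap : ∀ p : Fin n, (p : ℕ) + 1 = k → Snap V (tail q k (q p)) k := by
    intro p hp
    obtain ⟨h1, h2⟩ := htie p hp
    refine ⟨k.2, _, h1, ?_, ?_⟩
    · simp [h2]
    · rw [dot_tie, tail_lt (by omega), tail_ge le_rfl, sub_self]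
  have hfq : ¬ Snap V q k → ∀ d ∈ Cset V ((k : ℕ) + 1), X / 2 * |(d k : ℝ)| ≤ |dot d q| :=
    fun hs d hd => hX ▸ (hq.2 k).resolve_left hs d hd
  by_cases hA : ∀ i : Fin n, i < k → τ ≤ q i
  · by_cases hB : ∀ d ∈ Cset V ((k : ℕ) + 1), X / 2 * |(d k : ℝ)| ≤ |dot d (tail q k τ)|
    · refine ⟨τ, valid_tail hq hA (Or.inr ?_), ?_, by simp only [hτ]; linarith,
        fun _ h => h⟩
      · rw [herr, ← hX]; exact hB
      · have := err_le_bias (V := V) he (tail q k τ) k
        rw [herr] at this; simp only [hτ] at this ⊢; linarith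
    · push Not at hB
      obtain ⟨d, hd, hlt⟩ := hB
      have hdk : (d k : ℝ) ≠ 0 := by
        intro h; rw [h, abs_zero, mul_zero] at hlt
        exact absurd hlt (not_lt.2 (abs_nonneg _))
      set r := τ - dot d (tail q k τ) / d k with hr
      have hrτ : |τ - r| < X / 2 := by
        rw [hr, sub_sub_cancel, abs_div, div_lt_iff₀ (abs_pos.2 hdk)]; exact hlt
      obtain ⟨hr1, hr2⟩ := abs_lt.1 hrτ
      have hroot : dot d (tail q k r) = 0 := by
        have := hdot r τ d hd
        have h2 : (d k : ℝ) * (r - τ) = - dot d (tail q k τ) := by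
          rw [hr]; field_simp; ring
        linarith
      by_cases hR : ∀ i : Fin n, i < k → r ≤ q i
      · have hs : Snap V (tail q k r) k := ⟨k.2, d, hd, by exact_mod_cast hdk, hroot⟩
        refine ⟨r, valid_tail hq hR (Or.inl hs), ?_, ?_, fun hns h => ?_⟩
        · rw [hbX r hs]; simp only [hτ] at hr1; linarith
        · simp only [hτ] at hr2; linarith
        · have h1 := hfq hns d hd
          rw [hdotq r d hd, hroot, zero_add, abs_mul, mul_comm (X / 2)] at h1
          have h2 : X / 2 ≤ |q k - r| := le_of_mul_le_mul_left h1 (abs_pos.2 hdk)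
          rcases le_abs.1 h2 with h3 | h3 <;> linarith
      · push Not at hR
        obtain ⟨i, hik, hir⟩ := hR
        have hp : ∃ p : Fin n, (p : ℕ) + 1 = k :=
          ⟨⟨k - 1, by omega⟩, by simp; have : (i:ℕ) < k := hik; omega⟩
        obtain ⟨p, hp⟩ := hp
        have hip : q p ≤ q i := hq.1 (show (i:ℕ) ≤ p by have : (i:ℕ) < k := hik; omega)
        have hpt : τ ≤ q p := hA p (show (p:ℕ) < k by omega)
        refine ⟨q p, valid_tail hq (fun j hj => hq.1 ?_) (Or.inl (htsnap p hp)), ?_, ?_, ?_⟩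
        · show (j : ℕ) ≤ p
          have : (j:ℕ) < k := hj; omega
        · rw [hbX _ (htsnap p hp)]; simp only [hτ] at hr1; linarith
        · simp only [hτ] at hpt; linarith
        · intro _ h; linarith
  · push Not at hA
    obtain ⟨i, hik, hiτ⟩ := hA
    have hp : ∃ p : Fin n, (p : ℕ) + 1 = k :=
      ⟨⟨k - 1, by omega⟩, by simp; have : (i:ℕ) < k := hik; omega⟩
    obtain ⟨p, hp⟩ := hp
    have hpk : p < k := show (p:ℕ) < k by omega
    have hip : q p ≤ q i := hq.1 (show (i:ℕ) ≤ p by have : (i:ℕ) < k := hik; omega)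
    refine ⟨q p, valid_tail hq (fun j hj => hq.1 ?_) (Or.inl (htsnap p hp)), ?_, ?_, ?_⟩
    · show (j : ℕ) ≤ p
      have : (j:ℕ) < k := hj; omega
    · rw [hbX _ (htsnap p hp)]; simp only [hτ] at hiτ; linarith
    · have h1 := (abs_le.1 (hprev p hpk)).1
      have h2 := hu (le_of_lt hpk)
      linarith
    · intro hns h
      obtain ⟨h1, h2⟩ := htie p hp
      have h3 := hfq hns _ h1
      rw [dot_tie, h2, abs_of_nonneg (sub_nonneg.2 (hq.1 (le_of_lt hpk)))] at h3
      norm_num at h3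
      linarith

lemma compare (V : Finset (Fin n → ℤ)) {e₀ : ℝ} (he : 1 ≤ e₀) {u q : Fin n → ℝ}
    (hq : Valid V e₀ q) (k : Fin n) {γ c δ : ℝ}
    (hval : Valid V e₀ (tail q k c))
    (hcu : c - bias V e₀ (tail q k c) k ≤ u k - γ)
    (hδ : δ ≤ Real.exp (u k - γ))
    (hkey : ∑ i, tail q k c i * Real.exp (u i) - pen V e₀ (tail q k c) ≤
      ∑ i, q i * Real.exp (u i) - pen V e₀ q + δ) :
    Real.exp (q k - bias V e₀ q k) ≤
      (q k - c) * (∑ i ∈ univ.filter (fun i : Fin n => (k : ℕ) ≤ i), Real.exp (u i)) +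
        (n + 1) * Real.exp (u k - γ) := by
  set b := bias V e₀ q k with hb
  set T := univ.filter (fun i : Fin n => (k : ℕ) ≤ i) with hT
  set S := ∑ i ∈ T, Real.exp (u i) with hS
  have hkT : k ∈ T := by simp [hT]
  have hsplit : ∀ g : Fin n → ℝ,
      ∑ i, g i = (∑ i ∈ univ.filter (fun i : Fin n => ¬ (k : ℕ) ≤ i), g i) + ∑ i ∈ T, g i := by
    intro g; rw [add_comm, hT, sum_filter_add_sum_filter_not]
  unfold pen at hkey
  rw [hsplit, hsplit, hsplit, hsplit] at hkey
  have e1 : ∀ i ∈ univ.filter (fun i : Fin n => ¬ (k : ℕ) ≤ i), tail q k c i = q i :=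
    fun i hi => tail_lt (by have := (mem_filter.1 hi).2; omega)
  have e2 : ∀ i ∈ univ.filter (fun i : Fin n => ¬ (k : ℕ) ≤ i),
      bias V e₀ (tail q k c) i = bias V e₀ q i := fun i hi =>
    bias_congr fun j hj => tail_lt (by have := (mem_filter.1 hi).2; omega)
  rw [sum_congr rfl (fun i hi => by rw [e1 i hi] :
      ∀ i ∈ univ.filter (fun i : Fin n => ¬ (k : ℕ) ≤ i),
        tail q k c i * Real.exp (u i) = q i * Real.exp (u i)),
    sum_congr rfl (fun i hi => by rw [e1 i hi, e2 i hi] :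
      ∀ i ∈ univ.filter (fun i : Fin n => ¬ (k : ℕ) ≤ i),
        Real.exp (tail q k c i - bias V e₀ (tail q k c) i) =
          Real.exp (q i - bias V e₀ q i))] at hkey
  have a1 : ∑ i ∈ T, tail q k c i * Real.exp (u i) = c * S := by
    rw [hS, mul_sum]
    exact sum_congr rfl fun i hi => by rw [tail_ge (mem_filter.1 hi).2]
  have a2 : ∑ i ∈ T, q i * Real.exp (u i) ≤ q k * S := by
    rw [hS, mul_sum]
    exact sum_le_sum fun i hi =>
      mul_le_mul_of_nonneg_right (hq.1 (mem_filter.1 hi).2) (Real.exp_pos _).le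
  have a3 : ∑ i ∈ T, Real.exp (tail q k c i - bias V e₀ (tail q k c) i) ≤
      n * Real.exp (u k - γ) := by
    refine (sum_le_card_nsmul _ _ (Real.exp (u k - γ)) fun i hi => Real.exp_le_exp.2 ?_).trans ?_
    · have hki : (k : ℕ) ≤ i := (mem_filter.1 hi).2
      rw [tail_ge hki]
      have : bias V e₀ (tail q k c) k ≤ bias V e₀ (tail q k c) i := by
        rcases eq_or_lt_of_le hki with e | e
        · rw [e]
        · exact (bias_le_succ he _ k).trans
            ((err_mono he _ e).trans (err_le_bias he _ i))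
      linarith
    · rw [nsmul_eq_mul]
      refine mul_le_mul_of_nonneg_right ?_ (Real.exp_pos _).le
      exact_mod_cast (card_le_univ T).trans (by simp)
  have a4 : Real.exp (q k - b) ≤ ∑ i ∈ T, Real.exp (q i - bias V e₀ q i) :=
    single_le_sum (f := fun i => Real.exp (q i - bias V e₀ q i))
      (fun i _ => (Real.exp_pos _).le) hkT
  linarith [sub_mul (q k) c S, add_mul (n : ℝ) 1 (Real.exp (u k - γ))]

lemma upper (V : Finset (Fin n → ℤ)) {K : ℝ} (hK : 0 ≤ K) {y t D S : ℝ}
    (hy : gam V K < y) (hS0 : 0 ≤ S) (hS : S ≤ n * Real.exp t)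
    (hD : D ≤ y + 2 * (base V K * Pbd V ^ n))
    (main : Real.exp t * Real.exp y ≤
      D * S + ((n : ℝ) + 1) * (Real.exp t * Real.exp (-gam V K))) : False := by
  have hγ9 := gam_ge V hK
  have hn0 : (0 : ℝ) ≤ n := Nat.cast_nonneg _
  have hP : (0 : ℝ) ≤ Pbd V ^ n := pow_nonneg (zero_le_one.trans one_le_Pbd) _
  have hy1 : 0 ≤ y + 1 := by linarith
  have he0y : base V K ≤ (4 + K) * (y + 1) := by
    have : K * 1 ≤ K * (y + 1) := mul_le_mul_of_nonneg_left (by linarith) hK
    simp only [base]; linarith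
  have hD' : D ≤ (1 + (8 + 2 * K) * Pbd V ^ n) * (y + 1) := by
    have h2 := mul_le_mul_of_nonneg_right he0y hP
    linarith
  have hC0 : 0 ≤ (1 + (8 + 2 * K) * Pbd V ^ n) * (y + 1) := by positivity
  have h4 := (mul_le_mul_of_nonneg_right hD' hS0).trans (mul_le_mul_of_nonneg_left hS hC0)
  have hsmall : Real.exp (-gam V K) ≤ 1 := Real.exp_le_one_iff.2 (by linarith)
  set C := 1 + (8 + 2 * K) * Pbd V ^ n with hC
  have h5 : Real.exp y ≤ C * (y + 1) * n + (n + 1) := by
    refine le_of_mul_le_mul_left ?_ (Real.exp_pos t)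
    have h6 : ((n : ℝ) + 1) * (Real.exp t * Real.exp (-gam V K)) ≤
        ((n : ℝ) + 1) * (Real.exp t * 1) := by gcongr
    linarith
  have hA := growth (A := Aconst V K) (by linarith [Aconst_ge V hK]) hy
  have h7 : C * n + (n + 1) ≤ Aconst V K := by rw [hC]; unfold Aconst; linarith
  have h8 := mul_le_mul_of_nonneg_right h7 hy1
  have h9 : ((n : ℝ) + 1) * 1 ≤ ((n : ℝ) + 1) * (y + 1) := by gcongr; linarith
  linarith

lemma step (V : Finset (Fin n → ℤ)) {K : ℝ} (hK : 0 ≤ K) {u q : Fin n → ℝ}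
    (hu : Antitone u) (hq : Valid V (base V K) q) {δ : ℝ}
    (hδ : ∀ i, δ ≤ Real.exp (u i - gam V K))
    (hopt : ∀ q', Valid V (base V K) q' →
      ∑ i, q' i * Real.exp (u i) - pen V (base V K) q' ≤
        ∑ i, q i * Real.exp (u i) - pen V (base V K) q + δ)
    (k : Fin n) (hprev : ∀ i : Fin n, i < k → |q i - u i| ≤ err V (base V K) q k) :
    |q k - u k| ≤ err V (base V K) q ((k : ℕ) + 1) ∧
      q k - bias V (base V K) q k ≤ u k + gam V K := by
  set e₀ := base V K with he₀
  set γ := gam V K with hγ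
  have hγ9 : 8 * (n : ℝ) + 9 ≤ γ := gam_ge V hK
  have hn0 : (0 : ℝ) ≤ n := Nat.cast_nonneg _
  have hbase : 4 * (γ + 1) ≤ e₀ := by simp only [he₀, base]; linarith
  have he : 1 ≤ e₀ := by linarith
  set e := err V e₀ q k with hee
  have hee0 : e₀ ≤ e := err_ge he q k
  set X := Xw V k e with hX
  have hXe : 16 * e ≤ X := le_Xw (by linarith) k
  set b := bias V e₀ q k with hb
  have hbe : e ≤ b := err_le_bias he q k
  set τ := u k + e - γ with hτ
  have hn0' : (1 : ℝ) ≤ γ := by linarith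
  obtain ⟨c, hval, hcu, hcl, hfree⟩ := choice V he hu hq k hee hX hτ hn0' (by linarith) hprev
  have hkey := hopt _ hval
  have main := compare V he hq k hval hcu (hδ k) hkey
  set T := univ.filter (fun i : Fin n => (k : ℕ) ≤ i) with hT
  set S := ∑ i ∈ T, Real.exp (u i) with hS
  have hkT : k ∈ T := by simp [hT]
  have hS1 : Real.exp (u k) ≤ S :=
    single_le_sum (f := fun i => Real.exp (u i)) (fun i _ => (Real.exp_pos _).le) hkT
  have hS2 : S ≤ n * Real.exp (u k) := by
    refine (sum_le_card_nsmul _ _ (Real.exp (u k)) fun i hi => Real.exp_le_exp.2 (hu ?_)).trans ?_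
    · exact (mem_filter.1 hi).2
    · rw [nsmul_eq_mul]
      refine mul_le_mul_of_nonneg_right ?_ (Real.exp_pos _).le
      exact_mod_cast (card_le_univ T).trans (by simp)
  have hexp : Real.exp (u k - γ) = Real.exp (u k) * Real.exp (-γ) := by
    rw [← Real.exp_add]; ring_nf
  have hsmall : ((n : ℝ) + 1) * Real.exp (-γ) ≤ 1 := by
    rw [Real.exp_neg, ← div_eq_mul_inv, div_le_one (Real.exp_pos _)]
    linarith [Real.add_one_le_exp γ]
  have hlow : c - 1 ≤ q k := by
    by_contra h
    push Not at h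
    have h1 : (q k - c) * S ≤ (q k - c) * Real.exp (u k) :=
      mul_le_mul_of_nonpos_left hS1 (by linarith)
    have h2 := Real.exp_pos (q k - b)
    rw [hexp] at main
    have h3 : 0 < Real.exp (u k) * ((q k - c) + ((n : ℝ) + 1) * Real.exp (-γ)) := by linarith
    have := (pos_iff_pos_of_mul_pos h3).1 (Real.exp_pos _)
    linarith
  have hup : q k - b ≤ u k + γ := by
    by_contra h
    push Not at h
    set y := q k - b - u k with hy
    have hγy : γ < y := by simp only [hy]; linarith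
    have hy1 : 0 ≤ y := by linarith
    have hP := (one_le_Pbd (V := V))
    have hE : ∀ z, e ≤ z → z ≤ X → z ≤ e₀ * Pbd V ^ n := by
      intro z _ hz
      have hk1 : e ≤ e₀ * Pbd V ^ (k : ℕ) := err_le he q k
      have hXP : X ≤ e * Pbd V := by
        have h1 := four_le_kappa V
        have hm := Rr_mono (by linarith : (1:ℝ) ≤ kappa V) (Nat.sub_le n ((k:ℕ) + 1))
        have hRn : (0:ℝ) ≤ Rr (kappa V) n := by
          linarith [Rr_ge (by linarith : (1:ℝ) ≤ kappa V) n]
        simp only [hX, Xw, Pbd]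
        rw [mul_assoc]
        refine mul_le_mul_of_nonneg_left ?_ (by linarith)
        calc kappa V ^ 2 * Rr (kappa V) (n - ((k:ℕ) + 1)) ≤ kappa V ^ 2 * Rr (kappa V) n := by
              gcongr
          _ ≤ kappa V ^ 3 * Rr (kappa V) n := by
              gcongr
              · linarith
              · norm_num
      calc z ≤ e * Pbd V := hz.trans hXP
        _ ≤ e₀ * Pbd V ^ (k : ℕ) * Pbd V := by gcongr
        _ = e₀ * Pbd V ^ ((k : ℕ) + 1) := by ring
        _ ≤ _ := mul_le_mul_of_nonneg_left (pow_le_pow_right₀ hP k.2) (by linarith)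
    have hEX := hE X (by linarith) le_rfl
    have hEb := hE b hbe (bias_le_Xw he q k)
    have hb1 : Real.exp (q k - b) = Real.exp (u k) * Real.exp y := by
      rw [← Real.exp_add]; simp only [hy]; ring_nf
    rw [hb1, hexp] at main
    exact upper V hK hγy (le_trans (Real.exp_pos _).le hS1) hS2
      (show q k - c ≤ y + 2 * (e₀ * Pbd V ^ n) by simp only [hy]; linarith) main
  refine ⟨?_, hup⟩
  have hkap := four_le_kappa V
  have hsucc' : err V e₀ q ((k : ℕ) + 1) = kappa V * b := err_succ ..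
  rw [hsucc']
  have hκb : 4 * b ≤ kappa V * b := mul_le_mul_of_nonneg_right hkap (by linarith)
  rw [abs_le]
  refine ⟨?_, by linarith⟩
  by_cases hs : Snap V q k
  · have : b = X := by rw [hb, bias, if_pos hs]
    linarith
  · have := hfree hs hlow
    simp only [hτ] at this
    linarith

end

end Vale.Agent.P072
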