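import Vale.Agent.P072.Decrease

/-! P072: a priori bounds and absorbing sets. -/

namespace Vale.Agent.P072

open Finset

noncomputable section

variable {d : ℕ}

lemma barrier {g : ℝ → ℝ} {a b M0 : ℝ} (hc : ContinuousOn g (Set.Icc a b)) (h0 : g a ≤ M0)
    (h : ∀ s t, a ≤ s → s ≤ t → t ≤ b → (∀ u ∈ Set.Ioc s t, M0 < g u) → g t ≤ g s) :
    ∀ t ∈ Set.Icc a b, g t ≤ M0 := by
  intro t ht
  set S := Set.Icc a t ∩ g ⁻¹' Set.Iic M0 with hS
  have hcl : IsClosed S :=
    (hc.mono (Set.Icc_subset_Icc_right ht.2)).preimage_isClosed_of_isClosed isClosed_Icc isClosed_Iic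
  have hb : BddAbove S := ⟨t, fun s hs => hs.1.2⟩
  have hs := hcl.csSup_mem ⟨a, ⟨le_rfl, ht.1⟩, h0⟩ hb
  refine (h _ t hs.1.1 hs.1.2 ht.2 fun u hu => ?_).trans hs.2
  by_contra hcon
  exact absurd (le_csSup hb ⟨⟨hs.1.1.trans hu.1.le, hu.2⟩, not_lt.1 hcon⟩) (not_le.2 hu.1)

lemma span_dot {R : Finset (Reaction d)} {A : Finset (Fin d)} {p : A → ℝ}
    (hp : ∀ r ∈ R, ∑ i : A, (r.1 i : ℝ) * p i = ∑ i : A, (r.2 i : ℝ) * p i)
    {v : Fin d → ℝ} (hv : v ∈ stoich R) : ∑ i : A, p i * v i = 0 := by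
  induction hv using Submodule.span_induction with
  | mem x hx =>
    obtain ⟨r, hr, rfl⟩ := hx
    have := hp r (mem_coe.1 hr)
    simp only [mul_sub, sum_sub_distrib]
    rw [sub_eq_zero]
    simpa [mul_comm] using this.symm
  | zero => simp
  | add x y _ _ hx hy =>
    simp only [Pi.add_apply, mul_add, sum_add_distrib]
    rw [hx, hy, add_zero]
  | smul t x _ hx =>
    simp only [Pi.smul_apply, smul_eq_mul]
    rw [show ∑ i : A, p i * (t * x i) = t * ∑ i : A, p i * x i by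
      rw [mul_sum]; exact sum_congr rfl fun i _ => by ring, hx, mul_zero]

lemma mul_log_lower (B : ℝ) {y : ℝ} (hy : 0 < y) :
    -Real.exp B ≤ y * (Real.log y - B) := by
  have h1 := Real.add_one_le_exp (B - Real.log y)
  have h2 : y * Real.exp (B - Real.log y) = Real.exp B := by
    rw [Real.exp_sub, Real.exp_log hy]; field_simp
  have h3 := mul_le_mul_of_nonneg_left h1 hy.le
  linarith

lemma mul_log_lower' {B y η : ℝ} (hB : 0 ≤ B) (hy : 0 < y) (h : y ≤ η) (hη : η ≤ 1) :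
    -((2 + B) * Real.sqrt η) ≤ y * (Real.log y - B) := by
  have hs : 0 < Real.sqrt y := Real.sqrt_pos.2 hy
  have h1 : Real.log y = 2 * Real.log (Real.sqrt y) := by rw [Real.log_sqrt hy.le]; ring
  have h2 := Real.one_sub_inv_le_log_of_pos hs
  have h3 : y * (Real.sqrt y)⁻¹ = Real.sqrt y := by
    field_simp; rw [sq]; exact (Real.mul_self_sqrt hy.le).symm
  have h4 : Real.sqrt y ≤ Real.sqrt η := Real.sqrt_le_sqrt h
  have h5 : y ≤ Real.sqrt η := by
    refine le_trans ?_ h4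
    calc y = Real.sqrt y * Real.sqrt y := (Real.mul_self_sqrt hy.le).symm
      _ ≤ Real.sqrt y * 1 :=
        mul_le_mul_of_nonneg_left (Real.sqrt_le_one.2 (h.trans hη)) hs.le
      _ = _ := mul_one _
  rw [h1]
  have h6 := mul_le_mul_of_nonneg_left h2 hy.le
  nlinarith [mul_le_mul_of_nonneg_left h5 hB]

lemma exists_strict_large (R : Finset (Reaction d)) {c : Fin d → ℝ} (hc : ∀ i, 0 < c i)
    {B : ℝ} (hB : 0 ≤ B) :
    ∃ M1 : ℝ, 1 ≤ M1 ∧ ∀ x ∈ posClass R c, (∃ i, M1 < x i) → Strict R univ B x := by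
  set C := ∑ i, c i with hC
  have hC0 : 0 ≤ C := sum_nonneg fun i _ => (hc i).le
  set L := B * d + C + d + C * B + 1 with hL
  have hL0 : 0 ≤ L := by positivity
  refine ⟨Real.exp L, Real.one_le_exp hL0, fun x hx hbig p hp => ?_⟩
  by_contra hcon
  push Not at hcon
  obtain ⟨i₀, hi₀⟩ := hbig
  obtain ⟨m, -, hm⟩ := exists_max_image univ x ⟨i₀, mem_univ _⟩
  have hxm : Real.exp L < x m := lt_of_lt_of_le hi₀ (hm i₀ (mem_univ _))
  have hwm : L < Real.log (x m) := (Real.lt_log_iff_exp_lt (hx.1 m)).2 hxm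
  have h0 := span_dot hcon hx.2
  simp only [Pi.sub_apply, mul_sub, sum_sub_distrib, sub_eq_zero] at h0
  have hl : x m * (Real.log (x m)) - d - B * d * x m ≤ ∑ i : (univ : Finset (Fin d)), p i * x i := by
    have e1 : ∀ i : (univ : Finset (Fin d)),
        x i * Real.log (x i) - B * x m ≤ p i * x i := by
      intro i
      have h1 := (abs_le.1 (hp i)).1
      have h2 := hm i (mem_univ _)
      have h3 := mul_le_mul_of_nonneg_right h1 (hx.1 i).le
      have h4 := mul_le_mul_of_nonneg_left h2 hB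
      linarith
    refine le_trans ?_ (sum_le_sum fun i _ => e1 i)
    rw [sum_sub_distrib, sum_coe_sort univ (fun i => x i * Real.log (x i)), sum_const, card_univ,
      Fintype.card_coe, card_univ, Fintype.card_fin, nsmul_eq_mul]
    have : x m * Real.log (x m) + (1 : ℝ) - d ≤ ∑ i, (x i * Real.log (x i) + 1) - d := by
      refine sub_le_sub_right (single_le_sum (f := fun i => x i * Real.log (x i) + 1)
        (fun i _ => ?_) (mem_univ m)) _
      have := Real.one_sub_inv_le_log_of_pos (hx.1 i)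
      have h2 := mul_le_mul_of_nonneg_left this (hx.1 i).le
      rw [mul_sub, mul_one, mul_inv_cancel₀ (hx.1 i).ne'] at h2
      linarith [hx.1 i]
    rw [sum_add_distrib, sum_const, card_univ, Fintype.card_fin, nsmul_eq_mul, mul_one] at this
    linarith
  have hr : ∑ i : (univ : Finset (Fin d)), p i * c i ≤ C * (Real.log (x m) + B) := by
    rw [hC, ← sum_coe_sort univ c, sum_mul]
    refine sum_le_sum fun i _ => ?_
    rw [mul_comm (c i)]
    refine mul_le_mul_of_nonneg_right ?_ (hc i).le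
    have h1 := (abs_le.1 (hp i)).2
    have h2 := Real.log_le_log (hx.1 i) (hm i (mem_univ _))
    linarith
  have h1 : 1 ≤ x m := (Real.one_le_exp hL0).trans hxm.le
  have h2 : Real.log (x m) ≤ x m := (Real.log_le_sub_one_of_pos (hx.1 m)).trans (by linarith)
  nlinarith [mul_le_mul_of_nonneg_left h2 hC0, mul_le_mul_of_nonneg_left h1
    (by positivity : (0:ℝ) ≤ d + C * B + 1), mul_lt_mul_of_pos_left hwm (hx.1 m)]

lemma exists_strict_small (R : Finset (Reaction d)) {c : Fin d → ℝ} (hc : ∀ i, 0 < c i)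
    {A : Finset (Fin d)} (hA : A.Nonempty) {B : ℝ} (hB : 0 ≤ B) :
    ∃ ε : ℝ, 0 < ε ∧ ε ≤ Real.exp (-(B + 1)) ∧
      ∀ x ∈ posClass R c, (∀ i ∈ A, x i ≤ ε) → Strict R A B x := by
  set C := ∑ i : A, c i with hC
  have hC0 : 0 < C := by
    rw [hC, sum_coe_sort A c]; exact sum_pos (fun i _ => hc i) hA
  set L := 1 + ((A.card : ℝ) * (1 + B) + 1) / C with hL
  have hL1 : 1 ≤ L := by
    rw [hL]
    have : 0 ≤ ((A.card : ℝ) * (1 + B) + 1) / C := by positivity
    linarith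
  refine ⟨Real.exp (-(B + L)), Real.exp_pos _, Real.exp_le_exp.2 (by linarith),
    fun x hx hsmall p hp => ?_⟩
  by_contra hcon
  push Not at hcon
  have h0 := span_dot hcon hx.2
  simp only [Pi.sub_apply, mul_sub, sum_sub_distrib, sub_eq_zero] at h0
  have hl : -((A.card : ℝ) * (1 + B)) ≤ ∑ i : A, p i * x i := by
    have e1 : ∀ i : A, -(1 + B) ≤ p i * x i := by
      intro i
      have h1 := (abs_le.1 (hp i)).1
      have hxi : x i ≤ 1 := (hsmall i i.2).trans (Real.exp_le_one_iff.2 (by linarith))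
      have h2 := Real.one_sub_inv_le_log_of_pos (hx.1 i)
      have h3 := mul_le_mul_of_nonneg_left h2 (hx.1 i).le
      rw [mul_sub, mul_one, mul_inv_cancel₀ (hx.1 i).ne'] at h3
      have h4 := mul_le_mul_of_nonneg_right h1 (hx.1 i).le
      nlinarith [hx.1 i, mul_le_mul_of_nonneg_left hxi hB]
    have := card_nsmul_le_sum (univ : Finset A) _ _ fun i _ => e1 i
    rw [card_univ, Fintype.card_coe, nsmul_eq_mul] at this
    linarith
  have hr : ∑ i : A, p i * c i ≤ -L * C := by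
    rw [hC, mul_sum]
    refine sum_le_sum fun i _ => mul_le_mul_of_nonneg_right ?_ (hc i).le
    have h1 := (abs_le.1 (hp i)).2
    have h2 := (Real.log_le_log (hx.1 i) (hsmall i i.2)).trans_eq (Real.log_exp _)
    linarith
  have : L * C = C + ((A.card : ℝ) * (1 + B) + 1) := by rw [hL]; field_simp
  linarith

theorem upper_bounds (R : Finset (Reaction d)) (hwr : WeaklyReversible R) {lo : ℝ} (hi : ℝ)
    (hlo : 0 < lo) {c : Fin d → ℝ} (hc : ∀ i, 0 < c i) :
    (∀ x0 : Fin d → ℝ, ∃ M : ℝ, ∀ k x a b, Sol R lo hi c k x a b → x a = x0 →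
        ∀ t ∈ Set.Icc a b, ∀ i, x t i ≤ M) ∧
      ∃ Ms : ℝ, ∀ δ > 0, ∀ M : ℝ, ∃ τ : ℝ, 0 ≤ τ ∧ ∀ k x a b, Sol R lo hi c k x a b →
        a + τ ≤ b → (∀ t ∈ Set.Icc a b, ∀ i, δ ≤ x t i ∧ x t i ≤ M) →
        ∀ t ∈ Set.Icc (a + τ) b, ∀ i, x t i ≤ Ms := by
  obtain ⟨Φ, B, hB, hcont, hΦ, hdec⟩ :=
    exists_decreasing R hwr univ hi hlo one_pos le_rfl (le_refl (1 : ℝ))
  obtain ⟨M1, hM1, hstrict⟩ := exists_strict_large R hc hB
  have hl1 : 0 ≤ Real.log M1 := Real.log_nonneg hM1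
  have hupM : ∀ x : Fin d → ℝ, (∀ i, 0 < x i) → ∀ M, 1 ≤ M → (∀ i, x i ≤ M) →
      Φ (restr univ x) ≤ d * (M * (Real.log M + B)) := by
    intro x hx M hM hle
    have h1 := (abs_le.1 (hΦ (restr univ x) fun i => hx i)).2
    have h2 : ∀ i : (univ : Finset (Fin d)),
        x i * Real.log (x i) + B * x i ≤ M * (Real.log M + B) := by
      intro i
      have h4 := mul_le_mul_of_nonneg_left (Real.log_le_log (hx i) (hle i)) (hx i).le
      have h5 := mul_le_mul_of_nonneg_right (hle i)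
        (add_nonneg (Real.log_nonneg hM) hB)
      linarith
    have := sum_le_card_nsmul (univ : Finset ↥(univ : Finset (Fin d))) _ _ fun i _ => h2 i
    rw [card_univ, Fintype.card_coe, card_univ, Fintype.card_fin, nsmul_eq_mul, sum_add_distrib,
      ← mul_sum] at this
    simp only [restr] at h1 ⊢
    linarith
  set R0 := (d : ℝ) * (M1 * (Real.log M1 + B)) with hR0
  have hR00 : 0 ≤ R0 := by rw [hR0]; positivity
  set bd := fun Rv : ℝ => max (Real.exp (B + 1)) (Rv + d * Real.exp B) with hbd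
  have hcoer : ∀ x : Fin d → ℝ, (∀ i, 0 < x i) → ∀ Rv, Φ (restr univ x) ≤ Rv →
      ∀ i, x i ≤ bd Rv := by
    intro x hx Rv hle i
    have h1 := (abs_le.1 (hΦ (restr univ x) fun i => hx i)).1
    have h3 : x i * (Real.log (x i) - B) + Real.exp B ≤
        ∑ j, (x j * (Real.log (x j) - B) + Real.exp B) :=
      single_le_sum (f := fun j => x j * (Real.log (x j) - B) + Real.exp B)
        (fun j _ => by linarith [mul_log_lower B (hx j)]) (mem_univ i)
    rw [sum_add_distrib, sum_const, card_univ, Fintype.card_fin, nsmul_eq_mul] at h3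
    simp only [restr] at h1
    rw [sum_coe_sort univ (fun i => x i * Real.log (x i)), sum_coe_sort univ x] at h1
    simp only [mul_sub, sum_sub_distrib, ← sum_mul] at h3
    by_contra hc'
    push Not at hc'
    obtain ⟨ha, hb⟩ := max_lt_iff.1 (show max (Real.exp (B + 1)) (Rv + d * Real.exp B) < x i from hc')
    have h4 : B + 1 < Real.log (x i) := (Real.lt_log_iff_exp_lt (hx i)).2 ha
    have h5 := mul_le_mul_of_nonneg_left h4.le (hx i).le
    linarith [Real.exp_pos B]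
  have hgo : ∀ k x a b, a ≤ b → Sol R lo hi c k x a b →
      (∀ t ∈ Set.Ioc a b, R0 < Φ (restr univ (x t))) →
      ∀ m : ℝ, 0 ≤ m →
        (∀ t ∈ Set.Ioc a b, ∀ r ∈ R, m ≤ monom (restr univ r.1) (restr univ (x t))) →
        Φ (restr univ (x b)) ≤ Φ (restr univ (x a)) - lo * 1 ^ deg R * m / 2 * (b - a) := by
    intro k x a b hab hsol hbig
    refine hdec c k x a b hab hsol fun t ht => ⟨?_, fun j hj => absurd (mem_univ j) hj⟩
    obtain ⟨hxt, -, -⟩ := hsol t (Set.Ioc_subset_Icc_self ht)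
    refine hstrict _ hxt ?_
    by_contra hcon
    push Not at hcon
    exact absurd (hupM _ hxt.1 M1 hM1 hcon) (not_le.2 (hbig t ht))
  have hgc : ∀ k x a b, Sol R lo hi c k x a b →
      ContinuousOn (fun t => Φ (restr univ (x t))) (Set.Icc a b) := by
    intro k x a b hsol
    refine hcont.comp ?_ fun t ht i => (hsol t ht).1.1 _
    exact continuousOn_pi.2 fun i => (continuous_apply _).comp_continuousOn hsol.continuousOn
  have hbar : ∀ k x a b, Sol R lo hi c k x a b → ∀ M0, R0 ≤ M0 → Φ (restr univ (x a)) ≤ M0 →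
      ∀ t ∈ Set.Icc a b, Φ (restr univ (x t)) ≤ M0 := by
    intro k x a b hsol M0 hM0 h0
    refine barrier (hgc k x a b hsol) h0 fun s t hs hst ht hu => ?_
    have := hgo k x s t hst (hsol.mono hs ht) (fun u hu' => hM0.trans_lt (hu u hu')) 0 le_rfl
      fun u hu' r _ => prod_nonneg fun i _ => pow_nonneg
        (((hsol u ⟨hs.trans hu'.1.le, hu'.2.trans ht⟩).1.1 _).le) _
    simpa using this
  refine ⟨fun x0 => ⟨bd (max (Φ (restr univ x0)) R0), fun k x a b hsol hxa t ht =>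
    hcoer _ (hsol t ht).1.1 _ (hbar k x a b hsol _ (le_max_right _ _)
      (hxa ▸ le_max_left _ _) t ht)⟩, bd R0, fun δ hδ M => ?_⟩
  set M' := max M 1 with hM'
  set δ' := min δ 1 with hδ'
  set v := lo * 1 ^ deg R * δ' ^ deg R / 2 with hv
  have hv0 : 0 < v := by rw [hv]; positivity
  set U := (d : ℝ) * (M' * (Real.log M' + B)) with hU
  have hU0 : 0 ≤ U := by
    have := Real.log_nonneg (le_max_right M 1)
    rw [hU]; positivity
  refine ⟨(U + 1) / v, by positivity, fun k x a b hsol hτb hbox t ht => ?_⟩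
  set τ := (U + 1) / v with hτ
  have hτ0 : 0 ≤ τ := by positivity
  obtain ⟨s, hs, hsR⟩ : ∃ s ∈ Set.Icc a (a + τ), Φ (restr univ (x s)) ≤ R0 := by
    by_contra hcon
    push Not at hcon
    have h1 := hgo k x a (a + τ) (by linarith) (hsol.mono le_rfl hτb)
      (fun u hu => hcon u (Set.Ioc_subset_Icc_self hu)) (δ' ^ deg R) (by positivity)
      fun u hu r hr => by
        have hb' := hbox u ⟨hu.1.le, hu.2.trans hτb⟩
        refine (le_prod_pow hr univ (by positivity) (min_le_right _ _)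
          (x := x u) fun j _ => (min_le_left _ _).trans (hb' j).1).trans_eq ?_
        rw [monom, ← prod_coe_sort univ (fun i => x u i ^ r.1 i)]
        rfl
    have h2 := hcon (a + τ) ⟨by linarith, le_rfl⟩
    have hin : a ∈ Set.Icc a b := ⟨le_rfl, by linarith⟩
    have h3 := hupM (x a) (hsol a hin).1.1 M' (le_max_right _ _)
      fun i => (hbox a hin i).2.trans (le_max_left _ _)
    have h4 : v * (a + τ - a) = U + 1 := by rw [hτ]; field_simp; ring
    simp only [hv] at h4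
    linarith
  exact hcoer _ (hsol t ⟨by linarith [ht.1], ht.2⟩).1.1 _
    (hbar k x s b (hsol.mono hs.1 le_rfl) _ le_rfl hsR t ⟨hs.2.trans ht.1, ht.2⟩)

theorem repel (R : Finset (Reaction d)) (hwr : WeaklyReversible R) {lo : ℝ} (hi : ℝ)
    (hlo : 0 < lo) {c : Fin d → ℝ} (hc : ∀ i, 0 < c i) {A : Finset (Fin d)} (hA : A.Nonempty)
    {η' : ℝ} (hη' : 0 < η') (M : ℝ) :
    ∃ ε : ℝ, 0 < ε ∧
      (∀ ρ > 0, ∃ η > 0, ∀ k x a b, Sol R lo hi c k x a b →
        (∀ t ∈ Set.Icc a b, (∀ i, x t i ≤ M) ∧ ∀ j ∉ A, ∃ i ∈ insert j A, η' ≤ x t i) →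
        ρ ≤ ∑ i ∈ A, x a i → ∀ t ∈ Set.Icc a b, ∃ i ∈ A, η ≤ x t i) ∧
      ∀ δ > 0, ∃ τ : ℝ, 0 ≤ τ ∧ ∀ k x a, Sol R lo hi c k x a (a + τ) →
        (∀ t ∈ Set.Icc a (a + τ), (∀ i, x t i ≤ M) ∧ ∀ j ∉ A, ∃ i ∈ insert j A, η' ≤ x t i) →
        (∀ t ∈ Set.Icc a (a + τ), ∀ i, δ ≤ x t i) →
        ∃ s ∈ Set.Icc a (a + τ), ∃ i ∈ A, ε ≤ x s i := by
  set η1 := min η' 1 with hη1
  have hη10 : 0 < η1 := lt_min hη' one_pos
  obtain ⟨Φ, B, hB, hcont, hΦ, hdec⟩ :=
    exists_decreasing R hwr A hi hlo hη10 (min_le_right _ _) (le_max_right M 1)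
  obtain ⟨ε₀, hε₀, hε₀', hstrict⟩ := exists_strict_small R hc hA hB
  set ε := min ε₀ (η1 / 2) with hε
  have hεp : 0 < ε := lt_min hε₀ (by linarith)
  have hεη : ε < η' :=
    lt_of_le_of_lt (min_le_right _ _) (by linarith [min_le_left η' 1])
  -- in the small region the potential is negative
  have hneg : ∀ x : Fin d → ℝ, (∀ i, 0 < x i) → (∀ i ∈ A, x i ≤ ε) →
      Φ (restr A x) ≤ -∑ i ∈ A, x i := by
    intro x hx hle
    have h1 := (abs_le.1 (hΦ (restr A x) fun i => hx i)).2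
    have h2 : ∀ i : A, x i * Real.log (x i) + B * x i ≤ -x i := by
      intro i
      have h3 := (Real.log_le_log (hx i) ((hle i i.2).trans
        ((min_le_left _ _).trans hε₀'))).trans_eq (Real.log_exp _)
      have := mul_le_mul_of_nonneg_left h3 (hx i).le
      linarith
    have h4 := sum_le_sum fun i (_ : i ∈ (univ : Finset A)) => h2 i
    rw [sum_add_distrib, sum_neg_distrib, ← mul_sum] at h4
    simp only [restr] at h1 ⊢
    rw [← sum_coe_sort A x]
    linarith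
  have hgo : ∀ k x a b, a ≤ b → Sol R lo hi c k x a b →
      (∀ t ∈ Set.Icc a b, (∀ i, x t i ≤ M) ∧ ∀ j ∉ A, ∃ i ∈ insert j A, η' ≤ x t i) →
      (∀ t ∈ Set.Ioc a b, ∀ i ∈ A, x t i < ε) →
      ∀ m : ℝ, 0 ≤ m →
        (∀ t ∈ Set.Ioc a b, ∀ r ∈ R, m ≤ monom (restr A r.1) (restr A (x t))) →
        Φ (restr A (x b)) ≤ Φ (restr A (x a)) - lo * η1 ^ deg R * m / 2 * (b - a) := by
    intro k x a b hab hsol hH hsmall
    refine hdec c k x a b hab hsol fun t ht => ⟨?_, fun j hj => ?_⟩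
    · exact hstrict _ (hsol t (Set.Ioc_subset_Icc_self ht)).1
        fun i hi => (hsmall t ht i hi).le.trans (min_le_left _ _)
    · obtain ⟨hM, hout⟩ := hH t (Set.Ioc_subset_Icc_self ht)
      obtain ⟨i, hi, hηi⟩ := hout j hj
      refine ⟨?_, (hM j).trans (le_max_left _ _)⟩
      rcases mem_insert.1 hi with rfl | h
      · exact (min_le_left _ _).trans hηi
      · linarith [hsmall t ht i h]
  refine ⟨ε, hεp, fun ρ hρ => ?_, fun δ hδ => ?_⟩
  · set ρ' := min ρ ε with hρ'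
    have hρ'0 : 0 < ρ' := lt_min hρ hεp
    set s₀ := ρ' / ((A.card : ℝ) * (2 + B) + 1) with hs₀
    have hs₀0 : 0 < s₀ := by positivity
    set η := min (min ε 1) (s₀ ^ 2) with hη
    have hη0 : 0 < η := lt_min (lt_min hεp one_pos) (by positivity)
    refine ⟨η, hη0, fun k x a b hsol hH hρx t ht => ?_⟩
    by_contra hcon
    push Not at hcon
    -- last time at which the ball was left
    obtain ⟨s, hs, hst, hin⟩ : ∃ s ∈ Set.Icc a t, Φ (restr A (x s)) ≤ -ρ' ∧
        ∀ u ∈ Set.Ioc s t, ∀ i ∈ A, x u i < ε := by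
      set S := ⋃ i ∈ A, Set.Icc a t ∩ (fun u => x u i) ⁻¹' Set.Ici ε with hS
      have hcl : IsClosed S := by
        refine isClosed_biUnion_finset fun i _ => ?_
        refine ContinuousOn.preimage_isClosed_of_isClosed ?_ isClosed_Icc isClosed_Ici
        exact ((continuous_apply i).comp_continuousOn hsol.continuousOn).mono
          (Set.Icc_subset_Icc_right ht.2)
      by_cases hne : S.Nonempty
      · have hb : BddAbove S := ⟨t, by
          rintro u hu
          simp only [hS, Set.mem_iUnion] at hu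
          obtain ⟨i, -, hu⟩ := hu
          exact hu.1.2⟩
        have hmem := hcl.csSup_mem hne hb
        set s := sSup S with hs
        simp only [hS, Set.mem_iUnion] at hmem
        obtain ⟨i, hiA, hs1, hs2⟩ := hmem
        have hafter : ∀ u ∈ Set.Ioc s t, ∀ j ∈ A, x u j < ε := by
          intro u hu j hj
          by_contra hc'
          have : u ∈ S := by
            simp only [hS, Set.mem_iUnion]
            exact ⟨j, hj, ⟨hs1.1.trans hu.1.le, hu.2⟩, not_lt.1 hc'⟩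
          exact absurd (le_csSup hb this) (not_le.2 hu.1)
        refine ⟨s, hs1, ?_, hafter⟩
        have hle : ∀ j ∈ A, x s j ≤ ε := by
          intro j hj
          rcases eq_or_lt_of_le hs1.2 with e | e
          · rw [e]; exact (hcon j hj).le.trans ((min_le_left _ _).trans (min_le_left _ _))
          · have hcw : Filter.Tendsto (fun u => x u j) (nhdsWithin s (Set.Ioc s t))
                (nhds (x s j)) :=
              (((continuous_apply j).comp_continuousOn hsol.continuousOn) s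
                ⟨hs1.1, hs1.2.trans ht.2⟩).mono_left (nhdsWithin_mono _ fun u hu =>
                  ⟨hs1.1.trans hu.1.le, hu.2.trans ht.2⟩)
            have : (nhdsWithin s (Set.Ioc s t)).NeBot := left_nhdsWithin_Ioc_neBot e
            exact le_of_tendsto hcw (eventually_nhdsWithin_of_forall
              fun u hu => (hafter u hu j hj).le)
        refine (hneg _ (hsol s ⟨hs1.1, hs1.2.trans ht.2⟩).1.1 hle).trans (neg_le_neg ?_)
        exact (min_le_right _ _).trans (le_trans hs2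
          (single_le_sum (fun j _ => ((hsol s ⟨hs1.1, hs1.2.trans ht.2⟩).1.1 j).le) hiA))
      · have hall : ∀ u ∈ Set.Icc a t, ∀ j ∈ A, x u j < ε := by
          intro u hu j hj
          by_contra hc'
          exact hne ⟨u, by
            simp only [hS, Set.mem_iUnion]
            exact ⟨j, hj, hu, not_lt.1 hc'⟩⟩
        refine ⟨a, ⟨le_rfl, ht.1⟩, ?_, fun u hu => hall u (Set.Ioc_subset_Icc_self hu)⟩
        exact (hneg _ (hsol a ⟨le_rfl, ht.1.trans ht.2⟩).1.1
          fun j hj => (hall a ⟨le_rfl, ht.1⟩ j hj).le).trans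
            (neg_le_neg ((min_le_left _ _).trans hρx))
    have h1 := hgo k x s t hs.2 (hsol.mono hs.1 ht.2)
      (fun u hu => hH u ⟨hs.1.trans hu.1, hu.2.trans ht.2⟩) hin 0 le_rfl
      fun u hu r _ => prod_nonneg fun i _ => pow_nonneg
        (((hsol u ⟨hs.1.trans hu.1.le, hu.2.trans ht.2⟩).1.1 _).le) _
    have hxt := (hsol t ht).1.1
    have h2 := (abs_le.1 (hΦ (restr A (x t)) fun i => hxt i)).1
    have h3 : ∀ i : A, -((2 + B) * Real.sqrt η) ≤ x t i * (Real.log (x t i) - B) := fun i =>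
      mul_log_lower' hB (hxt i) (hcon i i.2).le ((min_le_left _ _).trans (min_le_right _ _))
    have h4 := card_nsmul_le_sum (univ : Finset A) _ _ fun i _ => h3 i
    rw [card_univ, Fintype.card_coe, nsmul_eq_mul] at h4
    simp only [mul_sub, sum_sub_distrib, ← sum_mul] at h4
    have h5 : Real.sqrt η ≤ s₀ := by
      rw [← Real.sqrt_sq hs₀0.le]; exact Real.sqrt_le_sqrt (min_le_right _ _)
    have h6 : (A.card : ℝ) * (2 + B) * Real.sqrt η ≤ (A.card : ℝ) * (2 + B) * s₀ :=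
      mul_le_mul_of_nonneg_left h5 (by positivity)
    have h7 : ((A.card : ℝ) * (2 + B) + 1) * s₀ = ρ' := by rw [hs₀]; field_simp
    simp only [restr] at h1 h2 hst
    linarith
  · set δ' := min δ 1 with hδ'
    set v := lo * η1 ^ deg R * δ' ^ deg R / 2 with hv
    have hv0 : 0 < v := by rw [hv]; positivity
    refine ⟨((A.card : ℝ) * Real.exp B + 1) / v, by positivity, fun k x a hsol hH hlow => ?_⟩
    set τ := ((A.card : ℝ) * Real.exp B + 1) / v with hτ
    have hτ0 : 0 ≤ τ := by positivity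
    by_contra hcon
    push Not at hcon
    have h1 := hgo k x a (a + τ) (by linarith) hsol hH
      (fun u hu => hcon u (Set.Ioc_subset_Icc_self hu)) (δ' ^ deg R) (by positivity)
      fun u hu r hr => by
        refine (le_prod_pow hr A (by positivity) (min_le_right _ _)
          (x := x u) fun j _ => (min_le_left _ _).trans
            (hlow u (Set.Ioc_subset_Icc_self hu) j)).trans_eq ?_
        rw [monom, ← prod_coe_sort A (fun i => x u i ^ r.1 i)]
        rfl
    have hina : a ∈ Set.Icc a (a + τ) := ⟨le_rfl, by linarith⟩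
    have hinb : a + τ ∈ Set.Icc a (a + τ) := ⟨by linarith, le_rfl⟩
    have h2 := (hneg _ (hsol a hina).1.1 fun j hj => (hcon a hina j hj).le).trans
      (neg_nonpos.2 (sum_nonneg fun j _ => ((hsol a hina).1.1 j).le))
    have hxb := (hsol _ hinb).1.1
    have h3 := (abs_le.1 (hΦ (restr A (x (a + τ))) fun i => hxb i)).1
    have h4 := card_nsmul_le_sum (univ : Finset A) _ _
      fun i _ => mul_log_lower B (hxb i)
    rw [card_univ, Fintype.card_coe, nsmul_eq_mul] at h4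
    simp only [mul_sub, sum_sub_distrib, ← sum_mul] at h4
    have h5 : v * (a + τ - a) = (A.card : ℝ) * Real.exp B + 1 := by rw [hτ]; field_simp; ring
    simp only [hv] at h5
    simp only [restr] at h1 h2 h3
    linarith

theorem lower_bound (R : Finset (Reaction d)) (hwr : WeaklyReversible R) {lo : ℝ} (hi : ℝ)
    (hlo : 0 < lo) {c : Fin d → ℝ} (hc : ∀ i, 0 < c i) (x0 : Fin d → ℝ) (M : ℝ) :
    ∃ η > 0, ∀ k x a b, Sol R lo hi c k x a b → x a = x0 →
      (∀ t ∈ Set.Icc a b, ∀ i, x t i ≤ M) → ∀ t ∈ Set.Icc a b, ∀ i, η ≤ x t i := by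
  classical
  suffices H : ∀ m : ℕ, ∃ η > 0, ∀ k x a b, Sol R lo hi c k x a b → x a = x0 →
      (∀ t ∈ Set.Icc a b, ∀ i, x t i ≤ M) → ∀ A : Finset (Fin d), A.Nonempty →
      d < A.card + m → ∀ t ∈ Set.Icc a b, ∃ i ∈ A, η ≤ x t i by
    obtain ⟨η, hη, h⟩ := H d
    refine ⟨η, hη, fun k x a b hs h0 hM t ht i => ?_⟩
    obtain ⟨j, hj, hle⟩ := h k x a b hs h0 hM {i} (singleton_nonempty i) (by simp) t ht
    rwa [mem_singleton.1 hj] at hle
  intro m
  induction m with
  | zero => exact ⟨1, one_pos, fun k x a b _ _ _ A _ h => absurd h (by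
      have := card_finset_fin_le A; omega)⟩
  | succ m ih =>
    obtain ⟨η', hη', hIH⟩ := ih
    by_cases hpos : ∀ i, 0 < x0 i
    · have : ∀ A : Finset (Fin d), ∃ η > 0, A.Nonempty → ∀ k x a b, Sol R lo hi c k x a b →
          x a = x0 → (∀ t ∈ Set.Icc a b, ∀ i, x t i ≤ M) →
          (∀ t ∈ Set.Icc a b, ∀ j ∉ A, ∃ i ∈ insert j A, η' ≤ x t i) →
          ∀ t ∈ Set.Icc a b, ∃ i ∈ A, η ≤ x t i := by
        intro A
        by_cases hA : A.Nonempty
        · obtain ⟨ε, -, h1, -⟩ := repel R hwr hi hlo hc hA hη' M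
          obtain ⟨η, hη, h⟩ := h1 (∑ i ∈ A, x0 i) (sum_pos (fun i _ => hpos i) hA)
          exact ⟨η, hη, fun _ k x a b hs h0 hM hout =>
            h k x a b hs (fun t ht => ⟨hM t ht, hout t ht⟩) (by rw [h0])⟩
        · exact ⟨1, one_pos, fun h => absurd h hA⟩
      choose ηA hηA hfA using this
      refine ⟨univ.inf' univ_nonempty ηA, (lt_inf'_iff _).2 fun A _ => hηA A,
        fun k x a b hs h0 hM A hA hcard t ht => ?_⟩
      obtain ⟨i, hi, hle⟩ := hfA A hA k x a b hs h0 hM (fun u hu j hj =>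
        hIH k x a b hs h0 hM _ (insert_nonempty _ _) (by rw [card_insert_of_notMem hj]; omega) u hu)
        t ht
      exact ⟨i, hi, (inf'_le _ (mem_univ A)).trans hle⟩
    · exact ⟨1, one_pos, fun k x a b hs h0 _ A _ _ t ht => absurd
        (h0 ▸ (hs a ⟨le_rfl, ht.1.trans ht.2⟩).1.1) hpos⟩

theorem absorbing (R : Finset (Reaction d)) (hwr : WeaklyReversible R) {lo : ℝ} (hi : ℝ)
    (hlo : 0 < lo) {c : Fin d → ℝ} (hc : ∀ i, 0 < c i) :
    ∃ η M : ℝ, 0 < η ∧ ∀ k x, (∀ T, Sol R lo hi c k x 0 T) →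
      ∃ T₀ : ℝ, ∀ t, T₀ ≤ t → ∀ i, η ≤ x t i ∧ x t i ≤ M := by
  classical
  obtain ⟨hup, Ms, hMs⟩ := upper_bounds R hwr hi hlo hc
  suffices H : ∀ m : ℕ, ∃ η > 0, ∀ k x, (∀ T, Sol R lo hi c k x 0 T) →
      ∃ T₀ : ℝ, 0 ≤ T₀ ∧ ∀ t, T₀ ≤ t → (∀ i, x t i ≤ Ms) ∧
        ∀ A : Finset (Fin d), A.Nonempty → d < A.card + m → ∃ i ∈ A, η ≤ x t i by
    obtain ⟨η, hη, h⟩ := H d
    refine ⟨η, Ms, hη, fun k x hx => ?_⟩
    obtain ⟨T₀, -, hT⟩ := h k x hx
    refine ⟨T₀, fun t ht i => ⟨?_, (hT t ht).1 i⟩⟩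
    obtain ⟨j, hj, hle⟩ := (hT t ht).2 {i} (singleton_nonempty i) (by simp)
    rwa [mem_singleton.1 hj] at hle
  have hbox : ∀ k x, (∀ T, Sol R lo hi c k x 0 T) →
      ∃ δ > 0, ∃ M, ∀ t, 0 ≤ t → ∀ i, δ ≤ x t i ∧ x t i ≤ M := by
    intro k x hx
    obtain ⟨M, hM⟩ := hup (x 0)
    obtain ⟨δ, hδ, hlow⟩ := lower_bound R hwr hi hlo hc (x 0) M
    exact ⟨δ, hδ, M, fun t ht i => ⟨hlow k x 0 t (hx t) rfl (hM k x 0 t (hx t) rfl) t
      ⟨ht, le_rfl⟩ i, hM k x 0 t (hx t) rfl t ⟨ht, le_rfl⟩ i⟩⟩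
  intro m
  induction m with
  | zero =>
    refine ⟨1, one_pos, fun k x hx => ?_⟩
    obtain ⟨δ, hδ, M, hb⟩ := hbox k x hx
    obtain ⟨τ, hτ, hM⟩ := hMs δ hδ M
    refine ⟨τ, hτ, fun t ht => ⟨fun i => ?_, fun A _ h => absurd h (by
      have := card_finset_fin_le A; omega)⟩⟩
    exact hM k x 0 t (hx t) (by linarith) (fun u hu => hb u hu.1) t ⟨by linarith, le_rfl⟩ i
  | succ m ih =>
    obtain ⟨η', hη', hIH⟩ := ih
    have : ∀ A : Finset (Fin d), ∃ η > 0, ∀ k x, (∀ T, Sol R lo hi c k x 0 T) →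
        ∃ T₀ : ℝ, ∀ t, T₀ ≤ t → A.Nonempty → d < A.card + (m + 1) → ∃ i ∈ A, η ≤ x t i := by
      intro A
      by_cases hA : A.Nonempty
      swap; · exact ⟨1, one_pos, fun k x _ => ⟨0, fun t _ h => absurd h hA⟩⟩
      by_cases hcard : d < A.card + (m + 1)
      swap; · exact ⟨1, one_pos, fun k x _ => ⟨0, fun t _ _ h => absurd h hcard⟩⟩
      obtain ⟨ε, hε, h1, h2⟩ := repel R hwr hi hlo hc hA hη' Ms
      obtain ⟨η, hη, hstay⟩ := h1 ε hε
      refine ⟨η, hη, fun k x hx => ?_⟩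
      obtain ⟨δ, hδ, M, hb⟩ := hbox k x hx
      obtain ⟨τ, hτ, hesc⟩ := h2 δ hδ
      obtain ⟨T₀, hT0, hT⟩ := hIH k x hx
      have hH : ∀ u, T₀ ≤ u → (∀ i, x u i ≤ Ms) ∧ ∀ j ∉ A, ∃ i ∈ insert j A, η' ≤ x u i :=
        fun u hu => ⟨(hT u hu).1, fun j hj => (hT u hu).2 _ (insert_nonempty _ _)
          (by rw [card_insert_of_notMem hj]; omega)⟩
      obtain ⟨s, hs, i, hiA, hsi⟩ := hesc k x T₀ ((hx (T₀ + τ)).mono hT0 le_rfl)
        (fun u hu => hH u hu.1) fun u hu i => (hb u (hT0.trans hu.1) i).1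
      refine ⟨T₀ + τ, fun t ht _ _ => ?_⟩
      have hs0 : 0 ≤ s := hT0.trans hs.1
      exact hstay k x s t ((hx t).mono hs0 le_rfl) (fun u hu => hH u (hs.1.trans hu.1))
        (hsi.trans (single_le_sum (fun j _ => ((hx t s ⟨hs0, hs.2.trans ht⟩).1.1 j).le) hiA))
        t ⟨hs.2.trans ht, le_rfl⟩
    choose ηA hηA hfA using this
    refine ⟨univ.inf' univ_nonempty ηA, (lt_inf'_iff _).2 fun A _ => hηA A, fun k x hx => ?_⟩
    obtain ⟨T₁, hT10, hT1⟩ := hIH k x hx
    choose TA hTA using fun A => hfA A k x hx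
    refine ⟨max T₁ (univ.sup' univ_nonempty TA), hT10.trans (le_max_left _ _),
      fun t ht => ⟨(hT1 t ((le_max_left _ _).trans ht)).1, fun A hA hcard => ?_⟩⟩
    obtain ⟨i, hi, hle⟩ :=
      hTA A t ((le_sup' _ (mem_univ A)).trans ((le_max_right _ _).trans ht)) hA hcard
    exact ⟨i, hi, (inf'_le _ (mem_univ A)).trans hle⟩

end

end Vale.Agent.P072
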