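import Vale.Agent.P072.Dissip

/-! P072: the potential decreases along trajectories. -/

namespace Vale.Agent.P072

open Finset Filter Topology

noncomputable section

variable {d : ℕ}

/-- `x` solves the system with rates `k t ∈ [lo, hi]` inside the class of `c`, on `[a, b]` -/
def Sol (R : Finset (Reaction d)) (lo hi : ℝ) (c : Fin d → ℝ) (k : ℝ → Reaction d → ℝ)
    (x : ℝ → Fin d → ℝ) (a b : ℝ) : Prop :=
  ∀ t ∈ Set.Icc a b, x t ∈ posClass R c ∧ (∀ r ∈ R, lo ≤ k t r ∧ k t r ≤ hi) ∧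
    HasDerivWithinAt x (field R (k t) (x t)) (Set.Icc a b) t

lemma Sol.mono {R : Finset (Reaction d)} {lo hi : ℝ} {c : Fin d → ℝ}
    {k : ℝ → Reaction d → ℝ} {x : ℝ → Fin d → ℝ} {a b a' b' : ℝ}
    (h : Sol R lo hi c k x a b) (ha : a ≤ a') (hb : b' ≤ b) : Sol R lo hi c k x a' b' := by
  intro t ht
  obtain ⟨h1, h2, h3⟩ := h t ⟨ha.trans ht.1, ht.2.trans hb⟩
  exact ⟨h1, h2, h3.mono (Set.Icc_subset_Icc ha hb)⟩

lemma Sol.continuousOn {R : Finset (Reaction d)} {lo hi : ℝ} {c : Fin d → ℝ}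
    {k : ℝ → Reaction d → ℝ} {x : ℝ → Fin d → ℝ} {a b : ℝ}
    (h : Sol R lo hi c k x a b) : ContinuousOn x (Set.Icc a b) :=
  fun t ht => (h t ht).2.2.continuousWithinAt

/-- restriction to the species in `A` -/
def restr (A : Finset (Fin d)) {β : Type*} (x : Fin d → β) : A → β := fun i => x i

lemma monom_eq_exp {σ : Type*} [Fintype σ] (y : σ → ℕ) {x : σ → ℝ} (hx : ∀ i, 0 < x i) :
    monom y x = Real.exp (∑ i, (y i : ℝ) * Real.log (x i)) := by
  rw [Real.exp_sum]
  refine prod_congr rfl fun i _ => ?_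
  rw [Real.exp_nat_mul, Real.exp_log (hx i)]

lemma monom_split (A : Finset (Fin d)) (y : Fin d → ℕ) (x : Fin d → ℝ) :
    monom y x = monom (restr A y) (restr A x) * ∏ j ∈ Aᶜ, x j ^ y j := by
  rw [monom, monom, ← prod_mul_prod_compl A, ← prod_coe_sort A (fun i => x i ^ y i)]
  rfl

/-- total degree of the reactant complexes -/
def deg (R : Finset (Reaction d)) : ℕ := ∑ r ∈ R, ∑ i, r.1 i

lemma prod_pow_le {R : Finset (Reaction d)} {r : Reaction d} (hr : r ∈ R) (S : Finset (Fin d))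
    {x : Fin d → ℝ} {M : ℝ} (hM : 1 ≤ M) (hx : ∀ j ∈ S, 0 ≤ x j ∧ x j ≤ M) :
    ∏ j ∈ S, x j ^ r.1 j ≤ M ^ deg R := by
  calc ∏ j ∈ S, x j ^ r.1 j ≤ ∏ j ∈ S, M ^ r.1 j :=
        prod_le_prod (fun j hj => pow_nonneg (hx j hj).1 _)
          fun j hj => pow_le_pow_left₀ (hx j hj).1 (hx j hj).2 _
    _ = M ^ ∑ j ∈ S, r.1 j := prod_pow_eq_pow_sum _ _ _
    _ ≤ _ := pow_le_pow_right₀ hM ((sum_le_univ_sum_of_nonneg fun j => Nat.zero_le _).trans
        (single_le_sum (f := fun r : Reaction d => ∑ i, r.1 i) (fun _ _ => Nat.zero_le _) hr))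

lemma le_prod_pow {R : Finset (Reaction d)} {r : Reaction d} (hr : r ∈ R) (S : Finset (Fin d))
    {x : Fin d → ℝ} {η : ℝ} (h0 : 0 ≤ η) (h1 : η ≤ 1) (hx : ∀ j ∈ S, η ≤ x j) :
    η ^ deg R ≤ ∏ j ∈ S, x j ^ r.1 j := by
  calc η ^ deg R ≤ η ^ ∑ j ∈ S, r.1 j :=
        pow_le_pow_of_le_one h0 h1 ((sum_le_univ_sum_of_nonneg fun j => Nat.zero_le _).trans
          (single_le_sum (f := fun r : Reaction d => ∑ i, r.1 i) (fun _ _ => Nat.zero_le _) hr))
    _ = ∏ j ∈ S, η ^ r.1 j := (prod_pow_eq_pow_sum _ _ _).symm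
    _ ≤ _ := prod_le_prod (fun j _ => pow_nonneg h0 _)
        fun j hj => pow_le_pow_left₀ h0 (hx j hj) _

/-- every slope near `log x` on `A` sees some reaction -/
def Strict (R : Finset (Reaction d)) (A : Finset (Fin d)) (B : ℝ) (x : Fin d → ℝ) : Prop :=
  ∀ p : A → ℝ, (∀ i : A, |p i - Real.log (x i)| ≤ B) →
    ∃ r ∈ R, ∑ i : A, (r.1 i : ℝ) * p i ≠ ∑ i : A, (r.2 i : ℝ) * p i

theorem exists_decreasing (R : Finset (Reaction d)) (hwr : WeaklyReversible R)
    (A : Finset (Fin d)) {lo : ℝ} (hi : ℝ) (hlo : 0 < lo) {η : ℝ} (hη : 0 < η) (hη1 : η ≤ 1)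
    {M : ℝ} (hM : 1 ≤ M) :
    ∃ (Φ : (A → ℝ) → ℝ) (B : ℝ), 0 ≤ B ∧ ContinuousOn Φ {z | ∀ i, 0 < z i} ∧
      (∀ z : A → ℝ, (∀ i, 0 < z i) → |Φ z - ∑ i, z i * Real.log (z i)| ≤ B * ∑ i, z i) ∧
      ∀ (c : Fin d → ℝ) (k : ℝ → Reaction d → ℝ) (x : ℝ → Fin d → ℝ) (a b : ℝ), a ≤ b →
        Sol R lo hi c k x a b →
        (∀ t ∈ Set.Ioc a b, Strict R A B (x t) ∧ ∀ j ∉ A, η ≤ x t j ∧ x t j ≤ M) →
        ∀ m : ℝ, 0 ≤ m →
          (∀ t ∈ Set.Ioc a b, ∀ r ∈ R, m ≤ monom (restr A r.1) (restr A (x t))) →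
          Φ (restr A (x b)) ≤ Φ (restr A (x a)) - lo * η ^ deg R * m / 2 * (b - a) := by
  classical
  set lo' := lo * η ^ deg R with hlo'
  set hi' := max hi 0 * M ^ deg R with hhi'
  obtain ⟨K, hK⟩ := exists_margin R hwr (lo := lo') (hi := hi') (by positivity)
  set V := (verts R ×ˢ verts R).image
    (fun yz => fun i : A => ((yz.2 i : ℤ) - (yz.1 i : ℤ))) with hV
  obtain ⟨Φ, B, hB, hΦ⟩ := exists_potential' V K
  have hopen : IsOpen {z : A → ℝ | ∀ i, 0 < z i} := by
    simp only [Set.setOf_forall]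
    exact isOpen_iInter_of_finite fun i => isOpen_lt continuous_const (continuous_apply i)
  have hconv : Convex ℝ {z : A → ℝ | ∀ i, 0 < z i} := by
    intro y hy z hz s t hs ht hst i
    simp only [Pi.add_apply, Pi.smul_apply, smul_eq_mul]
    rcases eq_or_lt_of_le hs with h | h
    · subst h; simp at hst; subst hst; simpa using hz i
    · exact add_pos_of_pos_of_nonneg (mul_pos h (hy i)) (mul_nonneg ht (hz i).le)
  have hcx : ConvexOn ℝ {z : A → ℝ | ∀ i, 0 < z i} Φ := by
    refine ⟨hconv, fun y hy z hz s t hs ht hst => le_of_forall_pos_le_add fun δ hδ => ?_⟩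
    obtain ⟨p, c, -, -, hle, hnear⟩ := (hΦ _ (hconv hy hz hs ht hst)).2 δ hδ
    have h1 := mul_le_mul_of_nonneg_left (hle y hy) hs
    have h2 := mul_le_mul_of_nonneg_left (hle z hz) ht
    have h3 : ∑ i, p i * (s • y + t • z) i = s * ∑ i, p i * y i + t * ∑ i, p i * z i := by
      rw [mul_sum, mul_sum, ← sum_add_distrib]
      refine sum_congr rfl fun i _ => ?_
      simp; ring
    have h4 : c = s * c + t * c := by rw [← add_mul, hst, one_mul]
    simp only [smul_eq_mul]
    linarith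
  have hcont := hcx.continuousOn hopen
  refine ⟨Φ, B, hB, hcont, fun z hz => (hΦ z hz).1, fun c k x a b hab hsol hgood m hm hmon => ?_⟩
  set v := lo * η ^ deg R * m / 2 with hv
  have hpos : ∀ t ∈ Set.Icc a b, ∀ i : A, 0 < restr A (x t) i := fun t ht i => (hsol t ht).1.1 i
  -- the rate at which slopes decrease
  have hrate : ∀ t ∈ Set.Ioc a b, ∀ p : A → ℝ, (∀ i, |p i - Real.log (x t i)| ≤ B) →
      (∀ w ∈ V, 0 < ∑ i, (w i : ℝ) * p i →
          K ≤ ∑ i, (w i : ℝ) * Real.log (x t i) ∧ 1 ≤ ∑ i, (w i : ℝ) * p i) →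
      ∑ i : A, p i * field R (k t) (x t) i ≤ -v := by
    intro t ht p hp hpV
    obtain ⟨hstrict, hout⟩ := hgood t ht
    have htc := Set.Ioc_subset_Icc_self ht
    obtain ⟨-, hk, -⟩ := hsol t htc
    have := hK (fun r => k t r * ∏ j ∈ Aᶜ, x t j ^ r.1 j) (fun r hr => ⟨?_, ?_⟩)
      (fun y => ∑ i : A, (y i : ℝ) * Real.log (x t i)) (fun y => ∑ i : A, (y i : ℝ) * p i)
      ?_ (hstrict p hp) m hm ?_
    · calc ∑ i : A, p i * field R (k t) (x t) i
          = ∑ r ∈ R, k t r * (∏ j ∈ Aᶜ, x t j ^ r.1 j) *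
            Real.exp (∑ i : A, (r.1 i : ℝ) * Real.log (x t i)) *
            ((∑ i : A, (r.2 i : ℝ) * p i) - ∑ i : A, (r.1 i : ℝ) * p i) := by
            simp only [field, mul_sum]
            rw [sum_comm]
            refine sum_congr rfl fun r _ => ?_
            have he : monom (restr A r.1) (restr A (x t)) =
                Real.exp (∑ i : A, (r.1 i : ℝ) * Real.log (x t i)) :=
              monom_eq_exp _ (hpos t htc)
            rw [← sum_sub_distrib, mul_sum, monom_split A r.1 (x t), he]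
            exact sum_congr rfl fun i _ => by ring
        _ ≤ _ := this
        _ = -v := by rw [hv, hlo']
    · exact mul_le_mul (hk r hr).1 (le_prod_pow hr _ hη.le hη1
        fun j hj => (hout j (mem_compl.1 hj)).1) (by positivity) (hlo.le.trans (hk r hr).1)
    · exact mul_le_mul ((hk r hr).2.trans (le_max_left _ _)) (prod_pow_le hr _ hM
        fun j hj => ⟨hη.le.trans (hout j (mem_compl.1 hj)).1, (hout j (mem_compl.1 hj)).2⟩)
        (prod_nonneg fun j hj => pow_nonneg (hη.le.trans (hout j (mem_compl.1 hj)).1) _)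
        (le_max_right _ _)
    · intro y hy z hz hlt
      have h := hpV (fun i : A => ((z i : ℤ) - (y i : ℤ)))
        (mem_image.2 ⟨(y, z), mem_product.2 ⟨hy, hz⟩, rfl⟩)
        (by push_cast; simp only [sub_mul, sum_sub_distrib]; linarith)
      push_cast at h
      simp only [sub_mul, sum_sub_distrib] at h
      exact ⟨by linarith [h.1], h.2⟩
    · intro r hr
      have he : monom (restr A r.1) (restr A (x t)) =
          Real.exp (∑ i : A, (r.1 i : ℝ) * Real.log (x t i)) := monom_eq_exp _ (hpos t htc)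
      rw [← he]; exact hmon t ht r hr
  -- run time backwards
  set f := fun s => -Φ (restr A (x (b - s))) with hf
  have hfc : ContinuousOn f (Set.Icc 0 (b - a)) := by
    refine (hcont.comp ?_ fun s hs => hpos _ ⟨by linarith [hs.2], by linarith [hs.1]⟩).neg
    refine continuousOn_pi.2 fun i => ?_
    exact ((continuous_apply (i : Fin d)).comp_continuousOn hsol.continuousOn).comp
      (by fun_prop) fun s hs => ⟨by linarith [hs.2], by linarith [hs.1]⟩
  have key := image_le_of_liminf_slope_right_le_deriv_boundary (f := f) (a := 0) (b := b - a)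
    hfc (B := fun s => f 0 + (-v) * s) (B' := fun _ => -v) (by simp)
    (by fun_prop)
    (fun s _ => by
      simpa using (((hasDerivAt_id s).const_mul (-v)).const_add (f 0)).hasDerivWithinAt)
    ?_ (Set.right_mem_Icc.2 (by linarith))
  · simp only [hf] at key
    simp only [sub_zero, sub_sub_cancel] at key
    linarith
  intro s hs r hr
  set τ := b - s with hτ
  have hτm : τ ∈ Set.Ioc a b := ⟨by linarith [hs.2], by linarith [hs.1]⟩
  have hτc := Set.Ioc_subset_Icc_self hτm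
  obtain ⟨-, -, hder⟩ := hsol τ hτc
  set D := field R (k τ) (x τ) with hD
  set P := ∑ i : A, (|Real.log (x τ i)| + B) with hP
  have hP0 : 0 ≤ P := sum_nonneg fun i _ => by positivity
  set ε := (r + v) / (2 * (P + 1)) with hε
  have hε0 : 0 < ε := by rw [hε]; apply div_pos <;> linarith
  have hlim : Tendsto (fun z => b - z) (𝓝[>] s) (𝓝[Set.Icc a b] τ) := by
    refine tendsto_nhdsWithin_iff.2 ⟨((continuous_const.sub continuous_id).tendsto s).mono_left
      nhdsWithin_le_nhds, ?_⟩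
    filter_upwards [Ioo_mem_nhdsGT hs.2] with z hz
    exact ⟨by linarith [hz.2], by linarith [hz.1, hs.1]⟩
  have hsmall := hlim.eventually
    (Asymptotics.isLittleO_iff.1 (hasDerivWithinAt_iff_isLittleO.1 hder) hε0)
  refine Eventually.frequently ?_
  filter_upwards [hsmall, Ioo_mem_nhdsGT hs.2,
    Ioo_mem_nhdsGT (show s < s + (r + v) / 2 by linarith)] with z hz hz1 hz2
  have hh : 0 < z - s := sub_pos.2 hz1.1
  have hyc : b - z ∈ Set.Icc a b := ⟨by linarith [hz1.2], by linarith [hz1.1, hs.1]⟩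
  obtain ⟨p, cc, hpB, hpV, hle, hnear⟩ :=
    (hΦ _ (hpos τ hτc)).2 ((z - s) * (z - s)) (by positivity)
  have h1 := hle _ (hpos _ hyc)
  have h2 : ∀ i : A, p i * (x τ i - x (b - z) i) ≤
      (z - s) * (p i * D i) + (|Real.log (x τ i)| + B) * (ε * (z - s)) := by
    intro i
    have h3 := (norm_le_pi_norm _ (i : Fin d)).trans hz
    rw [Real.norm_eq_abs, Real.norm_eq_abs, show b - z - τ = -(z - s) by rw [hτ]; ring,
      abs_neg, abs_of_pos hh] at h3
    simp only [Pi.sub_apply, Pi.smul_apply, smul_eq_mul] at h3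
    have h4 : |p i| ≤ |Real.log (x τ i)| + B := by
      have hpi : |p i - Real.log (x τ i)| ≤ B := hpB i
      have := abs_add_le (p i - Real.log (x τ i)) (Real.log (x τ i))
      simp only [sub_add_cancel] at this
      linarith
    have h5 : |p i * (x τ i - x (b - z) i - (z - s) * D i)| ≤
        (|Real.log (x τ i)| + B) * (ε * (z - s)) := by
      rw [abs_mul]
      refine mul_le_mul h4 ?_ (abs_nonneg _) (by positivity)
      rw [← abs_neg]
      refine le_trans (le_of_eq ?_) h3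
      congr 1; ring
    have h6 := (abs_le.1 h5).2
    linarith
  have h7 : ∑ i : A, p i * (x τ i - x (b - z) i) ≤
      (z - s) * (-v) + P * (ε * (z - s)) := by
    refine (sum_le_sum fun i _ => h2 i).trans ?_
    rw [sum_add_distrib, ← mul_sum, ← sum_mul]
    exact add_le_add (mul_le_mul_of_nonneg_left (hrate τ hτm p hpB hpV) hh.le) le_rfl
  have h8 : P * ε ≤ (r + v) / 2 := by
    have h9 : P * ε ≤ (P + 1) * ε := mul_le_mul_of_nonneg_right (by linarith) hε0.le
    have h10 : (P + 1) * ε = (r + v) / 2 := by rw [hε]; field_simp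
    linarith
  rw [slope_def_field, div_lt_iff₀ hh]
  have h11 : f z - f s ≤ ∑ i : A, p i * (x τ i - x (b - z) i) + (z - s) * (z - s) := by
    simp only [hf, ← hτ]
    simp only [mul_sub, sum_sub_distrib]
    simp only [restr] at h1 hnear
    linarith
  have h12 : (z - s) * (z - s) < (z - s) * ((r + v) / 2) :=
    mul_lt_mul_of_pos_left (by linarith [hz2.2]) hh
  have h13 : P * ε * (z - s) ≤ (r + v) / 2 * (z - s) := mul_le_mul_of_nonneg_right h8 hh.le
  linarith

end

end Vale.Agent.P072
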