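import Mathlib

/-! P072: mass-action systems. -/

namespace Vale.Agent.P072

open Finset

noncomputable section

variable {d : ℕ}

/-- a reaction `y → y'` is the pair `(y, y')` of complexes -/
abbrev Reaction (d : ℕ) := (Fin d → ℕ) × (Fin d → ℕ)

/-- `x ^ y` -/
def monom {σ : Type*} [Fintype σ] (y : σ → ℕ) (x : σ → ℝ) : ℝ := ∏ i, x i ^ y i

/-- the mass-action vector field -/
def field (R : Finset (Reaction d)) (k : Reaction d → ℝ) (x : Fin d → ℝ) : Fin d → ℝ :=
  fun i => ∑ r ∈ R, k r * monom r.1 x * ((r.2 i : ℝ) - (r.1 i : ℝ))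

/-- every reaction lies on a directed cycle -/
def WeaklyReversible (R : Finset (Reaction d)) : Prop :=
  ∀ r ∈ R, Relation.ReflTransGen (fun a b => (a, b) ∈ R) r.2 r.1

/-- the stoichiometric subspace -/
def stoich (R : Finset (Reaction d)) : Submodule ℝ (Fin d → ℝ) :=
  Submodule.span ℝ ((fun r : Reaction d => fun i => (r.2 i : ℝ) - (r.1 i : ℝ)) '' (R : Set (Reaction d)))

/-- the positive stoichiometric class of `c` -/
def posClass (R : Finset (Reaction d)) (c : Fin d → ℝ) : Set (Fin d → ℝ) :=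
  {x | (∀ i, 0 < x i) ∧ x - c ∈ stoich R}

end

end Vale.Agent.P072
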