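import Vale.Agent.P072.Analysis

/-! P072: the potential. -/

namespace Vale.Agent.P072

open Finset

noncomputable section

variable {n : ℕ}

/-- entropy `∑ x log x` -/
def ent (x : Fin n → ℝ) : ℝ := ∑ i, x i * Real.log (x i)

def Pot (V : Finset (Fin n → ℤ)) (K : ℝ) (x : Fin n → ℝ) : ℝ :=
  ⨆ a : Equiv.Perm (Fin n) × {q : Fin n → ℝ // Valid V (base V K) q},
    score V (base V K) a.1 a.2 x

lemma chain (V : Finset (Fin n → ℤ)) {K : ℝ} (hK : 0 ≤ K) {u q : Fin n → ℝ}
    (hu : Antitone u) (hq : Valid V (base V K) q) {δ : ℝ}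
    (hδ : ∀ i, δ ≤ Real.exp (u i - gam V K))
    (hopt : ∀ q', Valid V (base V K) q' →
      ∑ i, q' i * Real.exp (u i) - pen V (base V K) q' ≤
        ∑ i, q i * Real.exp (u i) - pen V (base V K) q + δ) :
    ∀ k, k ≤ n → (∀ i : Fin n, (i : ℕ) < k → |q i - u i| ≤ err V (base V K) q k) ∧
      ∀ d ∈ Cset V k, dot d q ≠ 0 →
        err V (base V K) q k * Rr (kappa V) (n - k) ≤ |dot d q| := by
  have he : 1 ≤ base V K := by
    have := gam_ge V hK
    have : (0:ℝ) ≤ n := Nat.cast_nonneg _
    unfold base; linarith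
  intro k
  induction k with
  | zero =>
    refine fun _ => ⟨fun i hi => absurd hi (Nat.not_lt_zero _), fun d hd h => absurd ?_ h⟩
    exact sum_eq_zero fun i _ => by simp [Cset_supp V (Nat.zero_le n) d hd i (Nat.zero_le _)]
  | succ k ih =>
    intro hk
    obtain ⟨h1, h2⟩ := ih (by omega)
    refine ⟨fun i hi => ?_, fun d hd hne => ?_⟩
    · rcases Nat.lt_succ_iff_lt_or_eq.1 hi with h | h
      · exact (h1 i h).trans (err_mono he q (Nat.le_succ k))
      · have := (step V hK hu hq hδ hopt i fun j hj => by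
            rw [h]; exact h1 j (lt_of_lt_of_eq hj h)).1
        rwa [h] at this
    · have hkap := four_le_kappa V
      have hep : 0 < err V (base V K) q k := err_pos he q k
      set e := err V (base V K) q k with hee
      set R' := Rr (kappa V) (n - (k + 1)) with hR'
      have hR1 : 1 ≤ R' := le_trans (by linarith) (Rr_ge (by linarith) _)
      have hRk : Rr (kappa V) (n - k) = kappa V ^ 4 * R' ^ 2 := by
        rw [show n - k = (n - (k + 1)) + 1 by omega]; rfl
      have hbig : err V (base V K) q (k + 1) * R' ≤ kappa V ^ 3 * R' ^ 2 * e := by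
        have hb : bias V (base V K) q k ≤ e * kappa V ^ 2 * R' := bias_le_Xw he q k
        calc err V (base V K) q (k + 1) * R' = kappa V * bias V (base V K) q k * R' := by
              rw [err_succ]
          _ ≤ kappa V * (e * kappa V ^ 2 * R') * R' := by gcongr
          _ = _ := by ring
      by_cases hdk : d ⟨k, hk⟩ = 0
      · have hmem : d ∈ Cset V k := by
          rw [Cset_step V hk]; exact mem_union_left _ (mem_filter.2 ⟨hd, hdk⟩)
        refine hbig.trans (le_trans ?_ (h2 d hmem hne))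
        rw [hRk, mul_comm e]
        gcongr
        · linarith
        · norm_num
      · have hd1 : (1 : ℝ) ≤ |((d ⟨k, hk⟩ : ℤ) : ℝ)| := by
          exact_mod_cast Int.one_le_abs hdk
        by_cases hs : Snap V q k
        · obtain ⟨_, d0, hd0, hd0k, hd0q⟩ := hs
          set d' := d0 ⟨k, hk⟩ • d - d ⟨k, hk⟩ • d0 with hd'
          have hmem : d' ∈ Cset V k := by
            rw [Cset_step V hk]
            exact mem_union_right _ (mem_image.2 ⟨(d0, d), mem_product.2 ⟨hd0, hd⟩, rfl⟩)
          have hdot : dot d' q = (d0 ⟨k, hk⟩ : ℝ) * dot d q := by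
            have : dot d' q = (d0 ⟨k, hk⟩ : ℝ) * dot d q - (d ⟨k, hk⟩ : ℝ) * dot d0 q := by
              simp only [dot, hd', mul_sum, ← sum_sub_distrib]
              refine sum_congr rfl fun i _ => ?_
              simp; ring
            rw [this, hd0q]; ring
          have hne' : dot d' q ≠ 0 := by
            rw [hdot]; exact mul_ne_zero (by exact_mod_cast hd0k) hne
          have h3 := h2 d' hmem hne'
          rw [hdot, abs_mul, hRk] at h3
          have hN : |(d0 ⟨k, hk⟩ : ℝ)| ≤ kappa V :=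
            (coord_le_Nbd V hk hd0 _).trans (by unfold kappa; linarith)
          refine hbig.trans (le_of_mul_le_mul_left ?_ (show (0:ℝ) < kappa V by linarith))
          calc kappa V * (kappa V ^ 3 * R' ^ 2 * e) = e * (kappa V ^ 4 * R' ^ 2) := by ring
            _ ≤ |(d0 ⟨k, hk⟩ : ℝ)| * |dot d q| := h3
            _ ≤ _ := by gcongr
        · have hf := (hq.2 ⟨k, hk⟩).resolve_left hs d hd
          have hb : bias V (base V K) q k = e := by rw [bias, if_neg hs]
          refine le_trans ?_ hf
          rw [err_succ, hb]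
          show kappa V * e * R' ≤ e * kappa V ^ 2 * R' / 2 * |((d ⟨k, hk⟩ : ℤ) : ℝ)|
          calc kappa V * e * R' = (4 * kappa V) * (e * R') / 4 * 1 := by ring
            _ ≤ (kappa V * kappa V) * (e * R') / 2 * |((d ⟨k, hk⟩ : ℤ) : ℝ)| := by
              gcongr
              norm_num
            _ = _ := by ring

theorem exists_potential (V : Finset (Fin n → ℤ)) (K : ℝ) :
    ∃ (Φ : (Fin n → ℝ) → ℝ) (B : ℝ), 0 ≤ B ∧ ∀ x : Fin n → ℝ, (∀ i, 0 < x i) →
      |Φ x - ent x| ≤ B * ∑ i, x i ∧
      ∀ δ > 0, ∃ (p : Fin n → ℝ) (c : ℝ), (∀ i, |p i - Real.log (x i)| ≤ B) ∧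
        (∀ v ∈ V, 0 < dot v p → K ≤ dot v (fun i => Real.log (x i)) ∧ 1 ≤ dot v p) ∧
        (∀ z : Fin n → ℝ, (∀ i, 0 < z i) → ∑ i, p i * z i - c ≤ Φ z) ∧
        Φ x ≤ ∑ i, p i * x i - c + δ := by
  set K' := max K 0 with hK'
  have hK : 0 ≤ K' := le_max_right _ _
  set e₀ := base V K' with he₀
  set γ := gam V K' with hγ
  have hγ9 := gam_ge V hK
  have hn0 : (0 : ℝ) ≤ n := Nat.cast_nonneg _
  have hbase : 4 * (γ + 1) + K' ≤ e₀ := le_rfl
  have he : 1 ≤ e₀ := by linarith
  set E := e₀ * Pbd V ^ n with hE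
  have hE0 : 0 ≤ E := mul_nonneg (by linarith) (pow_nonneg (zero_le_one.trans one_le_Pbd) _)
  haveI : Nonempty (Equiv.Perm (Fin n) × {q : Fin n → ℝ // Valid V e₀ q}) :=
    ⟨(1, ⟨_, valid_zero V e₀⟩)⟩
  have hup : ∀ x : Fin n → ℝ, (∀ i, 0 < x i) →
      ∀ a : Equiv.Perm (Fin n) × {q : Fin n → ℝ // Valid V e₀ q},
      score V e₀ a.1 a.2 x ≤ ent x + E * ∑ i, x i := by
    rintro x hx ⟨σ, q, hq⟩
    unfold score pen ent
    rw [← Equiv.sum_comp σ (fun i => x i * Real.log (x i)), ← Equiv.sum_comp σ x, mul_sum,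
      ← sum_sub_distrib, ← sum_add_distrib]
    refine sum_le_sum fun k _ => ?_
    have hb := bias_le (V := V) he q k
    have hxp := hx (σ k)
    set y := q k - bias V e₀ q k - Real.log (x (σ k)) with hy
    have h2 : Real.exp (q k - bias V e₀ q k) = x (σ k) * Real.exp y := by
      conv_rhs => rw [← Real.exp_log hxp]
      rw [← Real.exp_add]; simp only [hy]; ring_nf
    have h3 := Real.add_one_le_exp y
    rw [h2]
    nlinarith
  have hbdd : ∀ x : Fin n → ℝ, (∀ i, 0 < x i) → BddAbove (Set.range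
      fun a : Equiv.Perm (Fin n) × {q : Fin n → ℝ // Valid V e₀ q} => score V e₀ a.1 a.2 x) :=
    fun x hx => ⟨_, by rintro _ ⟨a, rfl⟩; exact hup x hx a⟩
  refine ⟨Pot V K', E + Real.exp γ, by positivity, fun x hx => ?_⟩
  set σ := Tuple.sort (fun i => -x i) with hσ
  set u := fun k => Real.log (x (σ k)) with hu'
  have hu : Antitone u := by
    intro a b hab
    have := Tuple.monotone_sort (fun i => -x i) hab
    simp only [Function.comp, neg_le_neg_iff] at this
    exact Real.log_le_log (hx _) this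
  have hexp : ∀ k, Real.exp (u k) = x (σ k) := fun k => Real.exp_log (hx _)
  have near : ∀ δ > 0, ∃ q : Fin n → ℝ, ∃ _ : Valid V e₀ q,
      (∀ i, |q i - u i| ≤ E) ∧
      (∀ d ∈ Cset V n, dot d q ≠ 0 →
        err V e₀ q n * kappa V ≤ |dot d q|) ∧
      (∀ i, |q i - u i| ≤ err V e₀ q n) ∧
      pen V e₀ q ≤ Real.exp γ * ∑ i, x i ∧
      Pot V K' x ≤ score V e₀ σ q x + δ := by
    intro δ hδ
    obtain ⟨η, hη, hηδ, hηx⟩ : ∃ η > 0, η ≤ δ ∧ ∀ i, η ≤ Real.exp (u i - γ) := by
      rcases isEmpty_or_nonempty (Fin n) with h | h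
      · exact ⟨δ, hδ, le_rfl, fun i => isEmptyElim i⟩
      · obtain ⟨j, hj⟩ := Finite.exists_min fun i => Real.exp (u i - γ)
        exact ⟨min δ (Real.exp (u j - γ)), lt_min hδ (Real.exp_pos _), min_le_left _ _,
          fun i => (min_le_right _ _).trans (hj i)⟩
    obtain ⟨⟨τ, q, hq⟩, hlt⟩ := exists_lt_of_lt_ciSup
      (show Pot V K' x - η < Pot V K' x by linarith)
    have hsort : score V e₀ τ q x ≤ score V e₀ σ q x := by
      unfold score
      have hmv : Monovary q (x ∘ σ) := by
        intro i j h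
        refine hq.1 ?_
        by_contra hc
        push Not at hc
        have h1 := hu hc.le
        exact absurd h (not_lt.2 ((Real.log_le_log_iff (hx _) (hx _)).1 h1))
      have := hmv.sum_mul_comp_perm_le_sum_mul (σ := τ.trans σ.symm)
      simp only [Function.comp, Equiv.trans_apply, Equiv.apply_symm_apply] at this
      linarith
    have hopt : ∀ q', Valid V e₀ q' →
        ∑ i, q' i * Real.exp (u i) - pen V e₀ q' ≤
          ∑ i, q i * Real.exp (u i) - pen V e₀ q + η := by
      intro q' hq'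
      have : score V e₀ σ q' x ≤ Pot V K' x := le_ciSup (hbdd x hx) (σ, ⟨q', hq'⟩)
      simp only [hexp]
      simp only [score] at this hlt hsort
      linarith
    obtain ⟨h1, h2⟩ := chain V hK hu hq hηx hopt n le_rfl
    refine ⟨q, hq, fun i => (h1 i i.2).trans ?_, ?_, fun i => h1 i i.2, ?_, ?_⟩
    · exact err_le he q n
    · simpa [Rr] using h2
    · rw [← Equiv.sum_comp σ x, mul_sum]
      refine sum_le_sum fun k _ => ?_
      have hk := (step V hK hu hq hηx hopt k fun j hj =>
        ((chain V hK hu hq hηx hopt k k.2.le).1 j hj)).2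
      rw [← hexp k, ← Real.exp_add]
      exact Real.exp_le_exp.2 (by linarith)
    · linarith
  refine ⟨?_, fun δ hδ => ?_⟩
  · rw [abs_le]
    have hS : 0 ≤ ∑ i, x i := sum_nonneg fun i _ => (hx i).le
    refine ⟨?_, ?_⟩
    · obtain ⟨q, hq, hqu, -, -, hpen, -⟩ := near 1 one_pos
      have h1 : score V e₀ σ q x ≤ Pot V K' x := le_ciSup (hbdd x hx) (σ, ⟨q, hq⟩)
      have h2 : ent x - E * ∑ i, x i ≤ ∑ k, q k * x (σ k) := by
        unfold ent
        rw [← Equiv.sum_comp σ (fun i => x i * Real.log (x i)), ← Equiv.sum_comp σ x, mul_sum,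
          ← sum_sub_distrib]
        refine sum_le_sum fun k _ => ?_
        have := mul_le_mul_of_nonneg_right (abs_le.1 (hqu k)).1 (hx (σ k)).le
        simp only [hu'] at this
        linarith
      simp only [score] at h1
      linarith
    · have : Pot V K' x ≤ ent x + E * ∑ i, x i := ciSup_le (hup x hx)
      have := mul_nonneg (Real.exp_pos γ).le hS
      linarith
  · obtain ⟨q, hq, hqu, hsep, herr, -, hnear⟩ := near δ hδ
    refine ⟨q ∘ σ.symm, pen V e₀ q, fun i => ?_, fun v hv hpos => ?_, fun z hz => ?_, ?_⟩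
    · have := hqu (σ.symm i)
      simp only [hu', Equiv.apply_symm_apply] at this
      simp only [Function.comp]
      linarith [Real.exp_pos γ]
    · have e1 : ∀ g : Fin n → ℝ, dot v g = dot (v ∘ σ) (g ∘ σ) := fun g => by
        unfold dot; exact (Equiv.sum_comp σ (fun i => (v i : ℝ) * g i)).symm
      rw [e1] at hpos ⊢
      simp only [Function.comp_assoc, Equiv.symm_comp_self, Function.comp_id] at hpos ⊢
      have hmem : v ∘ σ ∈ Cset V n := by
        rw [Cset_top]
        exact mem_union_left _ (mem_biUnion.2 ⟨σ, mem_univ _, mem_image.2 ⟨v, hv, rfl⟩⟩)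
      have h3 := hsep _ hmem hpos.ne'
      rw [abs_of_pos hpos] at h3
      have h4 : |dot (v ∘ σ) q - dot (v ∘ σ) u| ≤ Nbd V * err V e₀ q n := by
        unfold dot
        rw [← sum_sub_distrib]
        refine (abs_sum_le_sum_abs _ _).trans ?_
        calc ∑ i, |((v ∘ σ) i : ℝ) * q i - ((v ∘ σ) i : ℝ) * u i|
            ≤ ∑ i, |((v ∘ σ) i : ℝ)| * err V e₀ q n := by
              refine sum_le_sum fun i _ => ?_
              rw [← mul_sub, abs_mul]
              exact mul_le_mul_of_nonneg_left (herr i) (abs_nonneg _)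
          _ ≤ _ := by
              rw [← sum_mul]
              exact mul_le_mul_of_nonneg_right (sum_abs_le_Nbd V le_rfl hmem) (err_pos he q n).le
      have h5 := err_ge (V := V) he q n
      have h6 := (abs_le.1 h4).2
      have hkap : kappa V = 4 + Nbd V := rfl
      have hN := Nbd_nonneg V
      have hKK : K ≤ K' := le_max_left _ _
      refine ⟨?_, ?_⟩
      · change K ≤ dot (v ∘ σ) u
        rw [hkap] at h3
        linarith
      · rw [e1]
        simp only [Function.comp_assoc, Equiv.symm_comp_self, Function.comp_id]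
        nlinarith
    · have h1 : score V e₀ σ q z ≤ Pot V K' z := le_ciSup (hbdd z hz) (σ, ⟨q, hq⟩)
      simp only [score] at h1
      rw [← Equiv.sum_comp σ]
      simpa [Function.comp] using h1
    · simp only [score] at hnear
      rw [← Equiv.sum_comp σ]
      simpa [Function.comp] using hnear

end

end Vale.Agent.P072
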