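import Vale.Agent.P072.Defs
import Vale.Agent.P072.Final

/-! P072: weak reversibility makes admissible slopes dissipative. -/

namespace Vale.Agent.P072

open Finset

noncomputable section

variable {ι : Type*}

/-- along a path some edge drops, from above the end value, by a fixed fraction -/
lemma path_drop {E : Finset (ι × ι)} {a c : ι}
    (h : Relation.ReflTransGen (fun u v => (u, v) ∈ E) a c) :
    ∃ L : ℕ, ∀ b : ι → ℝ, b c < b a →
      ∃ e ∈ E, b c < b e.1 ∧ b a - b c ≤ L * (b e.1 - b e.2) := by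
  induction h using Relation.ReflTransGen.head_induction_on with
  | refl => exact ⟨0, fun b hb => absurd hb (lt_irrefl _)⟩
  | head hedge _ ih =>
    rename_i a a' _
    obtain ⟨L, hL⟩ := ih
    refine ⟨L + 1, fun b hb => ?_⟩
    push_cast
    by_cases h1 : (b a - b c) ≤ (L + 1 : ℝ) * (b a - b a')
    · exact ⟨(a, a'), hedge, hb, h1⟩
    · push Not at h1
      have h2 : (L : ℝ) * (b a - b c) < (L + 1) * (b a' - b c) := by linarith
      have h3 : b c < b a' := by
        by_contra hc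
        push Not at hc
        have : (L + 1 : ℝ) * (b a' - b c) ≤ 0 :=
          mul_nonpos_of_nonneg_of_nonpos (by positivity) (by linarith)
        have : 0 ≤ (L : ℝ) * (b a - b c) := mul_nonneg (Nat.cast_nonneg _) (by linarith)
        linarith
      obtain ⟨e, he, he1, he2⟩ := hL b h3
      refine ⟨e, he, he1, ?_⟩
      rcases Nat.eq_zero_or_pos L with hL0 | hL0
      · subst hL0; norm_num at he2; linarith
      · have hLpos : (0 : ℝ) < L := by exact_mod_cast hL0
        have h4 : (L + 1 : ℝ) * (b a' - b c) ≤ (L + 1) * (L * (b e.1 - b e.2)) := by gcongr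
        have h5 : (L : ℝ) * (b a - b c) ≤ L * ((L + 1) * (b e.1 - b e.2)) := by linarith
        exact le_of_mul_le_mul_left h5 hLpos

variable [DecidableEq ι]

/-- the complexes occurring in `E` -/
def verts (E : Finset (ι × ι)) : Finset ι := E.image Prod.fst ∪ E.image Prod.snd

lemma fst_mem_verts {E : Finset (ι × ι)} {e : ι × ι} (h : e ∈ E) : e.1 ∈ verts E :=
  mem_union_left _ (mem_image_of_mem _ h)

lemma snd_mem_verts {E : Finset (ι × ι)} {e : ι × ι} (h : e ∈ E) : e.2 ∈ verts E :=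
  mem_union_right _ (mem_image_of_mem _ h)

theorem exists_margin (E : Finset (ι × ι))
    (hwr : ∀ r ∈ E, Relation.ReflTransGen (fun u v => (u, v) ∈ E) r.2 r.1)
    {lo hi : ℝ} (hlo : 0 < lo) :
    ∃ K : ℝ, ∀ k : ι × ι → ℝ, (∀ r ∈ E, lo ≤ k r ∧ k r ≤ hi) → ∀ a b : ι → ℝ,
      (∀ y ∈ verts E, ∀ z ∈ verts E, b y < b z → a y + K ≤ a z ∧ 1 ≤ b z - b y) →
      (∃ r ∈ E, b r.1 ≠ b r.2) → ∀ m : ℝ, 0 ≤ m → (∀ r ∈ E, m ≤ Real.exp (a r.1)) →
      ∑ r ∈ E, k r * Real.exp (a r.1) * (b r.2 - b r.1) ≤ -(lo * m / 2) := by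
  classical
  choose! L hL using fun r (hr : r ∈ E) => path_drop (hwr r hr)
  set H := max hi 0 with hH
  set T := ∑ r ∈ E, H * (L r : ℝ) / lo with hT
  have hT0 : 0 ≤ T := sum_nonneg fun r _ => by positivity
  refine ⟨Real.log (2 * T + 1), fun k hk a b hab hex m hm hmle => ?_⟩
  set N := ∑ r ∈ E, k r * Real.exp (a r.1) * max (b r.1 - b r.2) 0 with hN
  set P := ∑ r ∈ E, k r * Real.exp (a r.1) * max (b r.2 - b r.1) 0 with hP
  have hk0 : ∀ r ∈ E, 0 ≤ k r := fun r hr => hlo.le.trans (hk r hr).1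
  have hN0 : ∀ r ∈ E, 0 ≤ k r * Real.exp (a r.1) * max (b r.1 - b r.2) 0 := fun r hr =>
    mul_nonneg (mul_nonneg (hk0 r hr) (Real.exp_pos _).le) (le_max_right _ _)
  have hsplit : ∑ r ∈ E, k r * Real.exp (a r.1) * (b r.2 - b r.1) = P - N := by
    rw [hP, hN, ← sum_sub_distrib]
    refine sum_congr rfl fun r _ => ?_
    rcases le_total (b r.1) (b r.2) with h | h
    · rw [max_eq_left (by linarith), max_eq_right (by linarith)]; ring
    · rw [max_eq_right (by linarith), max_eq_left (by linarith)]; ring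
  have hpair : ∀ r ∈ E, k r * Real.exp (a r.1) * max (b r.2 - b r.1) 0 * (2 * T + 1) ≤
      H * (L r : ℝ) / lo * N := by
    intro r hr
    rcases le_total (b r.2) (b r.1) with h | h
    · rw [max_eq_right (by linarith), mul_zero, zero_mul]
      exact mul_nonneg (by positivity) (sum_nonneg hN0)
    rcases eq_or_lt_of_le h with h | h
    · rw [max_eq_right (by linarith), mul_zero, zero_mul]
      exact mul_nonneg (by positivity) (sum_nonneg hN0)
    obtain ⟨e, he, he1, he2⟩ := hL r hr b h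
    obtain ⟨ha, -⟩ := hab r.1 (fst_mem_verts hr) e.1 (fst_mem_verts he) he1
    have hexp : (2 * T + 1) * Real.exp (a r.1) ≤ Real.exp (a e.1) := by
      calc (2 * T + 1) * Real.exp (a r.1) = Real.exp (Real.log (2 * T + 1) + a r.1) := by
            rw [Real.exp_add, Real.exp_log (by linarith)]
        _ ≤ _ := Real.exp_le_exp.2 (by linarith)
    have hNe : lo * Real.exp (a e.1) * (b e.1 - b e.2) ≤ N := by
      refine le_trans ?_ (single_le_sum hN0 he)
      calc lo * Real.exp (a e.1) * (b e.1 - b e.2)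
          ≤ lo * Real.exp (a e.1) * max (b e.1 - b e.2) 0 :=
            mul_le_mul_of_nonneg_left (le_max_left _ _) (by positivity)
        _ ≤ _ := mul_le_mul_of_nonneg_right
            (mul_le_mul_of_nonneg_right (hk e he).1 (Real.exp_pos _).le) (le_max_right _ _)
    rw [max_eq_left (by linarith)]
    calc k r * Real.exp (a r.1) * (b r.2 - b r.1) * (2 * T + 1)
        = k r * (b r.2 - b r.1) * ((2 * T + 1) * Real.exp (a r.1)) := by ring
      _ ≤ H * ((L r : ℝ) * (b e.1 - b e.2)) * Real.exp (a e.1) :=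
          mul_le_mul (mul_le_mul ((hk r hr).2.trans (le_max_left _ _)) he2 (by linarith)
            (le_max_right _ _)) hexp (by positivity)
            (mul_nonneg (le_max_right _ _) (le_trans (by linarith) he2))
      _ = H * (L r : ℝ) / lo * (lo * Real.exp (a e.1) * (b e.1 - b e.2)) := by field_simp
      _ ≤ _ := mul_le_mul_of_nonneg_left hNe (by positivity)
  have hPN : P * (2 * T + 1) ≤ T * N := by
    rw [hP, hT, sum_mul, sum_mul]; exact sum_le_sum hpair
  have hNm : lo * m ≤ N := by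
    obtain ⟨e, he, hdrop⟩ : ∃ e ∈ E, b e.2 < b e.1 := by
      obtain ⟨r, hr, hne⟩ := hex
      rcases lt_or_gt_of_ne hne with h | h
      · obtain ⟨e, he, -, he2⟩ := hL r hr b h
        refine ⟨e, he, ?_⟩
        by_contra hc
        push Not at hc
        have : (L r : ℝ) * (b e.1 - b e.2) ≤ 0 :=
          mul_nonpos_of_nonneg_of_nonpos (Nat.cast_nonneg _) (by linarith)
        linarith
      · exact ⟨r, hr, h⟩
    obtain ⟨-, h1⟩ := hab e.2 (snd_mem_verts he) e.1 (fst_mem_verts he) hdrop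
    refine le_trans ?_ (single_le_sum hN0 he)
    calc lo * m = lo * m * 1 := (mul_one _).symm
      _ ≤ k e * Real.exp (a e.1) * max (b e.1 - b e.2) 0 :=
          mul_le_mul (mul_le_mul (hk e he).1 (hmle e he) hm (hk0 e he))
            (h1.trans (le_max_left _ _)) zero_le_one
            (mul_nonneg (hk0 e he) (Real.exp_pos _).le)
  rw [hsplit]
  have hN' : 0 ≤ N := sum_nonneg hN0
  nlinarith

/-- the potential of `Final`, on any finite type of species -/
theorem exists_potential' {σ : Type*} [Fintype σ] (V : Finset (σ → ℤ)) (K : ℝ) :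
    ∃ (Φ : (σ → ℝ) → ℝ) (B : ℝ), 0 ≤ B ∧ ∀ x : σ → ℝ, (∀ i, 0 < x i) →
      |Φ x - ∑ i, x i * Real.log (x i)| ≤ B * ∑ i, x i ∧
      ∀ δ > 0, ∃ (p : σ → ℝ) (c : ℝ), (∀ i, |p i - Real.log (x i)| ≤ B) ∧
        (∀ v ∈ V, 0 < ∑ i, (v i : ℝ) * p i →
          K ≤ ∑ i, (v i : ℝ) * Real.log (x i) ∧ 1 ≤ ∑ i, (v i : ℝ) * p i) ∧
        (∀ z : σ → ℝ, (∀ i, 0 < z i) → ∑ i, p i * z i - c ≤ Φ z) ∧
        Φ x ≤ ∑ i, p i * x i - c + δ := by
  classical
  set e := (Fintype.equivFin σ).symm with he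
  obtain ⟨Φ, B, hB, h⟩ := exists_potential (V.image fun v => v ∘ e) K
  refine ⟨fun x => Φ (x ∘ e), B, hB, fun x hx => ?_⟩
  obtain ⟨h1, h2⟩ := h (x ∘ e) fun i => hx _
  refine ⟨?_, fun δ hδ => ?_⟩
  · simpa [ent, Equiv.sum_comp e, Function.comp,
      Equiv.sum_comp e (fun i => x i * Real.log (x i))] using h1
  · obtain ⟨p, c, hp, hv, hz, hn⟩ := h2 δ hδ
    refine ⟨p ∘ e.symm, c, fun i => ?_, fun v hvV => ?_, fun z hzp => ?_, ?_⟩
    · have := hp (e.symm i); simpa using this
    · have := hv (v ∘ e) (mem_image_of_mem _ hvV)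
      rw [← Equiv.sum_comp e, ← Equiv.sum_comp e (fun i => (v i : ℝ) * Real.log (x i))]
      simpa [dot] using this
    · have := hz (z ∘ e) fun i => hzp _
      rw [← Equiv.sum_comp e]
      simpa using this
    · rw [← Equiv.sum_comp e]
      simpa using hn

end

end Vale.Agent.P072
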