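import Vale.Agent.P072.Bounds

/-! P072: global existence, uniqueness and permanence. -/

namespace Vale.Agent.P072

open Finset NNReal

noncomputable section

variable {d : ℕ}

/-- `x` solves `ẋ = f_{k(t)}(x)` for `t ≥ 0` -/
def IsSolution (R : Finset (Reaction d)) (k : ℝ → Reaction d → ℝ) (x : ℝ → Fin d → ℝ) : Prop :=
  ∀ t, 0 ≤ t → HasDerivWithinAt x (field R (k t) (x t)) (Set.Ici 0) t

/-- every solution starting in the class exists, is unique and positive for all time, and all of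
them eventually stay in one compact subset of the class -/
def Permanent (R : Finset (Reaction d)) (k : ℝ → Reaction d → ℝ) (c : Fin d → ℝ) : Prop :=
  (∀ x0 ∈ posClass R c, ∃ x : ℝ → Fin d → ℝ, x 0 = x0 ∧ IsSolution R k x ∧
      (∀ t, 0 ≤ t → x t ∈ posClass R c) ∧
      ∀ (T : ℝ) (y : ℝ → Fin d → ℝ), y 0 = x0 →
        (∀ t ∈ Set.Ico 0 T, HasDerivWithinAt y (field R (k t) (y t)) (Set.Ico 0 T) t) →
        Set.EqOn y x (Set.Ico 0 T)) ∧
    ∃ K : Set (Fin d → ℝ), IsCompact K ∧ K ⊆ posClass R c ∧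
      ∀ x : ℝ → Fin d → ℝ, x 0 ∈ posClass R c → IsSolution R k x →
        ∃ T₀ : ℝ, ∀ t, T₀ ≤ t → x t ∈ K

lemma field_eq_smul (R : Finset (Reaction d)) (k : Reaction d → ℝ) (x : Fin d → ℝ) :
    field R k x = ∑ r ∈ R, (k r * monom r.1 x) • (fun i => (r.2 i : ℝ) - (r.1 i : ℝ)) := by
  ext i
  simp [field, Finset.sum_apply]

lemma field_mem_stoich (R : Finset (Reaction d)) (k : Reaction d → ℝ) (x : Fin d → ℝ) :
    field R k x ∈ stoich R := by
  rw [field_eq_smul]
  exact Submodule.sum_mem _ fun r hr =>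
    Submodule.smul_mem _ _ (Submodule.subset_span ⟨r, mem_coe.2 hr, rfl⟩)

lemma sub_mem_stoich (R : Finset (Reaction d)) (k : ℝ → Reaction d → ℝ) {x : ℝ → Fin d → ℝ}
    {a b : ℝ} (hx : ∀ t ∈ Set.Icc a b, HasDerivWithinAt x (field R (k t) (x t)) (Set.Icc a b) t) :
    ∀ t ∈ Set.Icc a b, x t - x a ∈ stoich R := by
  intro t ht
  refine (Subspace.forall_mem_dualAnnihilator_apply_eq_zero_iff _ _).1 fun φ hφ => ?_
  set L := LinearMap.toContinuousLinearMap φ with hL
  have h := constant_of_has_deriv_right_zero (f := fun u => L (x u)) (a := a) (b := b)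
    (L.continuous.comp_continuousOn fun u hu => (hx u hu).continuousWithinAt) ?_ t ht
  · show φ (x t - x a) = 0
    rw [map_sub, sub_eq_zero]
    exact h
  · intro u hu
    have h1 := L.hasFDerivAt.comp_hasDerivWithinAt u
      ((hx u (Set.Ico_subset_Icc_self hu)).mono_of_mem_nhdsWithin (Icc_mem_nhdsGE_of_mem hu))
    have h2 : L (field R (k u) (x u)) = 0 :=
      (Submodule.mem_dualAnnihilator φ).1 hφ _ (field_mem_stoich R (k u) (x u))
    simpa [h2, Function.comp_def] using h1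

lemma monom_contDiff (y : Fin d → ℕ) : ContDiff ℝ 1 (fun x : Fin d → ℝ => monom y x) := by
  unfold monom; fun_prop

lemma field_lipschitz (R : Finset (Reaction d)) (H : ℝ) {S : Set (Fin d → ℝ)}
    (hS : IsCompact S) :
    ∃ L : ℝ≥0, ∀ k : Reaction d → ℝ, (∀ r ∈ R, |k r| ≤ H) →
      LipschitzOnWith L (field R k) S := by
  have : ∀ r : Reaction d, ∃ C : ℝ≥0, LipschitzOnWith C (fun x => monom r.1 x) S := fun r =>
    (monom_contDiff r.1).locallyLipschitz.locallyLipschitzOn.exists_lipschitzOnWith_of_compact hS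
  choose C hC using this
  set D := fun r : Reaction d => (fun i => (r.2 i : ℝ) - (r.1 i : ℝ))
  set L := ∑ r ∈ R, max H 0 * (C r : ℝ) * ‖D r‖ with hL
  have hL0 : 0 ≤ L := sum_nonneg fun r _ => by positivity
  refine ⟨L.toNNReal, fun k hk => LipschitzOnWith.of_dist_le' fun x hx y hy => ?_⟩
  rw [dist_eq_norm, field_eq_smul, field_eq_smul, ← sum_sub_distrib, hL, sum_mul]
  refine (norm_sum_le _ _).trans (sum_le_sum fun r hr => ?_)
  rw [← sub_smul, norm_smul, ← mul_sub, norm_mul]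
  have h1 : ‖monom r.1 x - monom r.1 y‖ ≤ (C r : ℝ) * dist x y := by
    rw [← dist_eq_norm]; exact (hC r).dist_le_mul x hx y hy
  calc ‖k r‖ * ‖monom r.1 x - monom r.1 y‖ * ‖D r‖
      ≤ max H 0 * ((C r : ℝ) * dist x y) * ‖D r‖ := by
        gcongr
        exact (hk r hr).trans (le_max_left _ _)
    _ = _ := by ring

/-- coordinatewise truncation to `[u, v]` -/
def clamp (u v : ℝ) (x : Fin d → ℝ) : Fin d → ℝ := fun i => max u (min v (x i))

lemma clamp_lipschitz (u v : ℝ) : LipschitzWith 1 (clamp u v : (Fin d → ℝ) → Fin d → ℝ) := by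
  refine LipschitzWith.of_dist_le_mul fun x y => ?_
  rw [NNReal.coe_one, one_mul, dist_pi_le_iff dist_nonneg]
  intro i
  refine le_trans ?_ (dist_le_pi_dist x y i)
  rw [Real.dist_eq, Real.dist_eq]
  show |max u (min v (x i)) - max u (min v (y i))| ≤ |x i - y i|
  refine le_trans (abs_max_sub_max_le_max _ _ _ _) ?_
  rw [sub_self, abs_zero, max_eq_right (abs_nonneg _)]
  refine le_trans (abs_min_sub_min_le_max _ _ _ _) ?_
  rw [sub_self, abs_zero, max_eq_right (abs_nonneg _)]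

theorem exists_solution (R : Finset (Reaction d)) (hwr : WeaklyReversible R)
    {lo hi : ℝ} (hlo : 0 < lo) {c : Fin d → ℝ} (hc : ∀ i, 0 < c i)
    (k : ℝ → Reaction d → ℝ) (hkc : ∀ r ∈ R, ContinuousOn (fun t => k t r) (Set.Ici 0))
    (hk : ∀ t, 0 ≤ t → ∀ r ∈ R, lo ≤ k t r ∧ k t r ≤ hi)
    {x0 : Fin d → ℝ} (hx0 : x0 ∈ posClass R c) :
    ∃ x : ℝ → Fin d → ℝ, x 0 = x0 ∧ IsSolution R k x ∧ ∀ T, Sol R lo hi c k x 0 T := by
  have hkH : ∀ t, 0 ≤ t → ∀ r ∈ R, |k t r| ≤ hi := fun t ht r hr => by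
    rw [abs_of_nonneg (hlo.le.trans (hk t ht r hr).1)]; exact (hk t ht r hr).2
  obtain ⟨M₁, hM₁⟩ := (upper_bounds R hwr hi hlo hc).1 x0
  obtain ⟨η₁, hη₁, hlow⟩ := lower_bound R hwr hi hlo hc x0 M₁
  set e := (∑ i, (x0 i)⁻¹ + 1)⁻¹ with he
  have hsum : 0 ≤ ∑ i, (x0 i)⁻¹ := sum_nonneg fun i _ => (inv_pos.2 (hx0.1 i)).le
  have he0 : 0 < e := inv_pos.2 (by linarith)
  have hex : ∀ i, e ≤ x0 i := fun i => by
    have h1 : (x0 i)⁻¹ ≤ ∑ j, (x0 j)⁻¹ + 1 :=
      (single_le_sum (f := fun j => (x0 j)⁻¹) (fun j _ => (inv_pos.2 (hx0.1 j)).le)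
        (mem_univ i)).trans (by linarith)
    calc e ≤ ((x0 i)⁻¹)⁻¹ := inv_anti₀ (inv_pos.2 (hx0.1 i)) h1
      _ = x0 i := inv_inv _
  set u := min η₁ e / 2 with hu
  have hu0 : 0 < u := by have := lt_min hη₁ he0; linarith
  set v := max M₁ (∑ i, x0 i) + 1 with hv
  set S : Set (Fin d → ℝ) := Set.pi Set.univ fun _ => Set.Icc u (max u v) with hS
  have hSc : IsCompact S := isCompact_univ_pi fun _ => isCompact_Icc
  have hclampS : ∀ z : Fin d → ℝ, clamp u v z ∈ S := fun z i _ =>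
    ⟨le_max_left _ _, max_le_max le_rfl (min_le_left _ _)⟩
  obtain ⟨L, hL⟩ := field_lipschitz R hi hSc
  set g := fun t z => field R (k t) (clamp u v z) with hg
  have hglip : ∀ t, 0 ≤ t → LipschitzWith L (g t) := fun t ht => by
    refine lipschitzOnWith_univ.1 ?_
    have := (hL (k t) (hkH t ht)).comp (clamp_lipschitz u v).lipschitzOnWith
      (fun z (_ : z ∈ Set.univ) => hclampS z)
    simpa [hg, Function.comp_def] using this
  obtain ⟨Cb, hCb⟩ : ∃ C : ℝ≥0, ∀ t, 0 ≤ t → ∀ z, ‖g t z‖ ≤ C := by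
    have : ∀ r : Reaction d, ∃ C, ∀ z ∈ S, ‖monom r.1 z‖ ≤ C := fun r =>
      hSc.exists_bound_of_continuousOn (monom_contDiff r.1).continuous.continuousOn
    choose C hC using this
    refine ⟨(∑ r ∈ R, max hi 0 * max (C r) 0 * ‖fun i => (r.2 i : ℝ) - (r.1 i : ℝ)‖).toNNReal,
      fun t ht z => ?_⟩
    rw [Real.coe_toNNReal _ (sum_nonneg fun r _ => by positivity), hg]
    simp only [field_eq_smul]
    refine (norm_sum_le _ _).trans (sum_le_sum fun r hr => ?_)
    rw [norm_smul, norm_mul]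
    gcongr
    · exact (hkH t ht r hr).trans (le_max_left _ _)
    · exact (hC r _ (hclampS z)).trans (le_max_left _ _)
  have hloc : ∀ T : ℝ, 0 ≤ T → ∃ α : ℝ → Fin d → ℝ, α 0 = x0 ∧
      ∀ t ∈ Set.Icc 0 T, HasDerivWithinAt α (g t (α t)) (Set.Icc 0 T) t := by
    intro T hT
    have hpl : IsPicardLindelof g (tmin := 0) (tmax := T) ⟨0, le_rfl, hT⟩ x0
        (Cb * T.toNNReal) 0 Cb L := by
      refine ⟨fun t ht => (hglip t ht.1).lipschitzOnWith, fun z _ => ?_,
        fun t ht z _ => hCb t ht.1 z, ?_⟩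
      · simp only [hg, field_eq_smul]
        exact continuousOn_finsetSum _ fun r hr =>
          (((hkc r hr).mono fun t ht => ht.1).mul continuousOn_const).smul continuousOn_const
      · simp [hT]
    exact hpl.exists_eq_forall_mem_Icc_hasDerivWithinAt₀
  -- the truncation is never active
  have hreal : ∀ T : ℝ, 0 ≤ T → ∀ α : ℝ → Fin d → ℝ, α 0 = x0 →
      (∀ t ∈ Set.Icc 0 T, HasDerivWithinAt α (g t (α t)) (Set.Icc 0 T) t) →
      Sol R lo hi c k α 0 T := by
    intro T hT α h0 hα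
    have hcont : ContinuousOn α (Set.Icc 0 T) := fun t ht => (hα t ht).continuousWithinAt
    have hin : ∀ s ∈ Set.Icc 0 T, (∀ t ∈ Set.Icc 0 s, ∀ i, u ≤ α t i ∧ α t i ≤ v) →
        Sol R lo hi c k α 0 s := by
      intro s hs hbox
      have hder : ∀ t ∈ Set.Icc 0 s,
          HasDerivWithinAt α (field R (k t) (α t)) (Set.Icc 0 s) t := by
        intro t ht
        have h1 := (hα t ⟨ht.1, ht.2.trans hs.2⟩).mono (Set.Icc_subset_Icc_right hs.2)
        have h2 : clamp u v (α t) = α t := funext fun i => by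
          obtain ⟨ha, hb⟩ := hbox t ht i
          simp [clamp, ha, hb]
        simpa [hg, h2] using h1
      intro t ht
      refine ⟨⟨fun i => hu0.trans_le (hbox t ht i).1, ?_⟩, hk t ht.1, hder t ht⟩
      have h3 := Submodule.add_mem _ (sub_mem_stoich R k hder t ht) hx0.2
      rw [h0] at h3
      simpa using h3
    have hgood : ∀ t ∈ Set.Icc 0 T, ∀ i, u < α t i ∧ α t i < v := by
      by_contra hcon
      push Not at hcon
      obtain ⟨t₁, ht₁, i₁, hbad⟩ := hcon
      set B := ⋃ i, (Set.Icc 0 T ∩ (fun t => α t i) ⁻¹' Set.Iic u) ∪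
        (Set.Icc 0 T ∩ (fun t => α t i) ⁻¹' Set.Ici v) with hB
      have hcl : IsClosed B := isClosed_iUnion_of_finite fun i => IsClosed.union
        (((continuous_apply i).comp_continuousOn hcont).preimage_isClosed_of_isClosed
          isClosed_Icc isClosed_Iic)
        (((continuous_apply i).comp_continuousOn hcont).preimage_isClosed_of_isClosed
          isClosed_Icc isClosed_Ici)
      have hne : B.Nonempty := by
        refine ⟨t₁, Set.mem_iUnion.2 ⟨i₁, ?_⟩⟩
        by_cases h : u < α t₁ i₁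
        · exact Or.inr ⟨ht₁, hbad h⟩
        · exact Or.inl ⟨ht₁, not_lt.1 h⟩
      have hbd : BddBelow B := ⟨0, by
        rintro t ht
        obtain ⟨i, h | h⟩ := Set.mem_iUnion.1 ht <;> exact h.1.1⟩
      obtain ⟨i, hi'⟩ := Set.mem_iUnion.1 (hcl.csInf_mem hne hbd)
      set s := sInf B
      have hs : s ∈ Set.Icc 0 T := hi'.elim (·.1) (·.1)
      have hbefore : ∀ t ∈ Set.Ico 0 s, ∀ j, u ≤ α t j ∧ α t j ≤ v := by
        intro t ht j
        constructor <;> by_contra hc'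
        · exact absurd (csInf_le hbd (Set.mem_iUnion.2
            ⟨j, Or.inl ⟨⟨ht.1, ht.2.le.trans hs.2⟩, (not_le.1 hc').le⟩⟩)) (not_le.2 ht.2)
        · exact absurd (csInf_le hbd (Set.mem_iUnion.2
            ⟨j, Or.inr ⟨⟨ht.1, ht.2.le.trans hs.2⟩, (not_le.1 hc').le⟩⟩)) (not_le.2 ht.2)
      have hclosed : ∀ t ∈ Set.Icc 0 s, ∀ j, u ≤ α t j ∧ α t j ≤ v := by
        intro t ht j
        rcases eq_or_lt_of_le ht.2 with e' | e'
        · subst e'
          rcases eq_or_lt_of_le hs.1 with e'' | e''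
          · rw [← e'', h0]
            exact ⟨le_trans (by rw [hu]; linarith [min_le_right η₁ e]) (hex j),
              (single_le_sum (fun i _ => (hx0.1 i).le) (mem_univ j)).trans
                (by rw [hv]; linarith [le_max_right M₁ (∑ i, x0 i)])⟩
          · have hcw : Filter.Tendsto (fun w => α w j) (nhdsWithin s (Set.Ico 0 s))
                (nhds (α s j)) :=
              (((continuous_apply j).comp_continuousOn hcont) s hs).mono_left
                (nhdsWithin_mono _ fun w hw => ⟨hw.1, hw.2.le.trans hs.2⟩)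
            have : (nhdsWithin s (Set.Ico 0 s)).NeBot := right_nhdsWithin_Ico_neBot e''
            exact ⟨ge_of_tendsto hcw (eventually_nhdsWithin_of_forall
                fun w hw => (hbefore w hw j).1),
              le_of_tendsto hcw (eventually_nhdsWithin_of_forall
                fun w hw => (hbefore w hw j).2)⟩
        · exact hbefore t ⟨ht.1, e'⟩ j
      have hsol := hin s hs hclosed
      have hup' := hM₁ k α 0 s hsol h0
      have hlo' := hlow k α 0 s hsol h0 hup'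
      have hsm : s ∈ Set.Icc 0 s := ⟨hs.1, le_rfl⟩
      rcases hi' with h | h
      · have h1 : α s i ≤ u := h.2
        have h2 := hlo' s hsm i
        have h3 : u < η₁ := by rw [hu]; linarith [min_le_left η₁ e]
        linarith
      · have h1 : v ≤ α s i := h.2
        have h2 := hup' s hsm i
        have h3 : M₁ < v := by rw [hv]; linarith [le_max_left M₁ (∑ i, x0 i)]
        linarith
    exact hin T ⟨hT, le_rfl⟩ fun t ht i => ⟨(hgood t ht i).1.le, (hgood t ht i).2.le⟩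
  have hT1 : ∀ t : ℝ, (0:ℝ) ≤ max t 0 + 1 := fun t => by positivity
  choose α hα0 hα using fun t : ℝ => hloc (max t 0 + 1) (hT1 t)
  set x := fun t => α t t with hx
  have hagree : ∀ s t, 0 ≤ t → t ≤ max s 0 + 1 → x t = α s t := by
    intro s t ht hts
    have htt : t ≤ max t 0 + 1 := by linarith [le_max_left t 0]
    have hsub : ∀ w, t ≤ max w 0 + 1 → ContinuousOn (α w) (Set.Icc 0 t) ∧
        ∀ z ∈ Set.Ico 0 t, HasDerivWithinAt (α w) (g z (α w z)) (Set.Ici z) z := by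
      intro w hw
      refine ⟨fun z hz => ((hα w z ⟨hz.1, hz.2.trans hw⟩).mono
        (Set.Icc_subset_Icc_right hw)).continuousWithinAt, fun z hz => ?_⟩
      exact (hα w z ⟨hz.1, hz.2.le.trans hw⟩).mono_of_mem_nhdsWithin
        (Icc_mem_nhdsGE_of_mem ⟨hz.1, hz.2.trans_le hw⟩)
    exact ODE_solution_unique_of_mem_Icc_right (v := g) (s := fun _ => Set.univ)
      (fun z hz => (hglip z hz.1).lipschitzOnWith) (hsub t htt).1 (hsub t htt).2
      (fun _ _ => trivial) (hsub s hts).1 (hsub s hts).2 (fun _ _ => trivial)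
      ((hα0 t).trans (hα0 s).symm) ⟨ht, le_rfl⟩
  have hxT : ∀ T, Sol R lo hi c k x 0 T := by
    intro T t ht
    obtain ⟨h1, h2, h3⟩ := hreal _ (hT1 T) (α T) (hα0 T) (hα T) t
      ⟨ht.1, ht.2.trans (by linarith [le_max_left T 0])⟩
    have heq : x t = α T t := hagree T t ht.1 (ht.2.trans (by linarith [le_max_left T 0]))
    refine ⟨heq ▸ h1, h2, ?_⟩
    rw [heq]
    exact (h3.mono (Set.Icc_subset_Icc_right (by linarith [le_max_left T 0]))).congr
      (fun z hz => hagree T z hz.1 (hz.2.trans (by linarith [le_max_left T 0]))) heq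
  refine ⟨x, hα0 0, fun t ht => ?_, hxT⟩
  exact (hxT (t + 1) t ⟨ht, by linarith⟩).2.2.mono_of_mem_nhdsWithin
    (by
      rw [← Set.Ici_inter_Iic]
      exact inter_mem_nhdsWithin _ (Iic_mem_nhds (by linarith)))

theorem solution_unique (R : Finset (Reaction d)) {lo hi : ℝ} (hlo : 0 < lo)
    (k : ℝ → Reaction d → ℝ) (hk : ∀ t, 0 ≤ t → ∀ r ∈ R, lo ≤ k t r ∧ k t r ≤ hi)
    {x y : ℝ → Fin d → ℝ} {τ : ℝ} (h0 : y 0 = x 0)
    (hx : ∀ t ∈ Set.Icc 0 τ, HasDerivWithinAt x (field R (k t) (x t)) (Set.Icc 0 τ) t)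
    (hy : ∀ t ∈ Set.Icc 0 τ, HasDerivWithinAt y (field R (k t) (y t)) (Set.Icc 0 τ) t) :
    Set.EqOn y x (Set.Icc 0 τ) := by
  have hxc : ContinuousOn x (Set.Icc 0 τ) := fun t ht => (hx t ht).continuousWithinAt
  have hyc : ContinuousOn y (Set.Icc 0 τ) := fun t ht => (hy t ht).continuousWithinAt
  set S := x '' Set.Icc 0 τ ∪ y '' Set.Icc 0 τ with hS
  have hSc : IsCompact S := (isCompact_Icc.image_of_continuousOn hxc).union
    (isCompact_Icc.image_of_continuousOn hyc)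
  obtain ⟨L, hL⟩ := field_lipschitz R hi hSc
  exact ODE_solution_unique_of_mem_Icc_right (v := fun t => field R (k t)) (s := fun _ => S)
    (fun t ht => hL _ fun r hr => by
      rw [abs_of_nonneg (hlo.le.trans (hk t ht.1 r hr).1)]; exact (hk t ht.1 r hr).2)
    hyc (fun t ht => (hy t (Set.Ico_subset_Icc_self ht)).mono_of_mem_nhdsWithin
      (Icc_mem_nhdsGE_of_mem ht))
    (fun t ht => Or.inr ⟨t, Set.Ico_subset_Icc_self ht, rfl⟩)
    hxc (fun t ht => (hx t (Set.Ico_subset_Icc_self ht)).mono_of_mem_nhdsWithin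
      (Icc_mem_nhdsGE_of_mem ht))
    (fun t ht => Or.inl ⟨t, Set.Ico_subset_Icc_self ht, rfl⟩) h0

theorem permanent (R : Finset (Reaction d)) (hwr : WeaklyReversible R)
    {lo hi : ℝ} (hlo : 0 < lo) {c : Fin d → ℝ} (hc : ∀ i, 0 < c i)
    (k : ℝ → Reaction d → ℝ) (hkc : ∀ r ∈ R, ContinuousOn (fun t => k t r) (Set.Ici 0))
    (hk : ∀ t, 0 ≤ t → ∀ r ∈ R, lo ≤ k t r ∧ k t r ≤ hi) : Permanent R k c := by
  have huniq : ∀ {x : ℝ → Fin d → ℝ}, (∀ T, Sol R lo hi c k x 0 T) →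
      ∀ (y : ℝ → Fin d → ℝ) τ, y 0 = x 0 →
      (∀ t ∈ Set.Icc 0 τ, HasDerivWithinAt y (field R (k t) (y t)) (Set.Icc 0 τ) t) →
      Set.EqOn y x (Set.Icc 0 τ) := fun hx y τ h0 hy =>
    solution_unique R hlo k hk h0 (fun t ht => (hx τ t ht).2.2) hy
  refine ⟨fun x0 hx0 => ?_, ?_⟩
  · obtain ⟨x, h0, hsol, hT⟩ := exists_solution R hwr hlo hc k hkc hk hx0
    refine ⟨x, h0, hsol, fun t ht => (hT t t ⟨ht, le_rfl⟩).1, fun T y hy0 hy t ht => ?_⟩
    exact huniq hT y t (hy0.trans h0.symm) (fun s hs => (hy s ⟨hs.1, hs.2.trans_lt ht.2⟩).mono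
      fun z hz => ⟨hz.1, hz.2.trans_lt ht.2⟩) ⟨ht.1, le_rfl⟩
  · obtain ⟨η, M, hη, habs⟩ := absorbing R hwr hi hlo hc
    refine ⟨(Set.pi Set.univ fun _ => Set.Icc η M) ∩ {z | z - c ∈ stoich R}, ?_, ?_, ?_⟩
    · exact (isCompact_univ_pi fun _ => isCompact_Icc).inter_right
        ((stoich R).closed_of_finiteDimensional.preimage (by fun_prop))
    · exact fun z hz => ⟨fun i => hη.trans_le (hz.1 i trivial).1, hz.2⟩
    · intro y hy0 hy
      obtain ⟨x, h0, -, hT⟩ := exists_solution R hwr hlo hc k hkc hk hy0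
      obtain ⟨T₀, hT₀⟩ := habs k x hT
      refine ⟨max T₀ 0, fun t ht => ?_⟩
      have ht0 : 0 ≤ t := (le_max_right _ _).trans ht
      have heq : y t = x t := huniq hT y t h0.symm
        (fun s hs => (hy s hs.1).mono fun z hz => hz.1) ⟨ht0, le_rfl⟩
      rw [heq]
      exact ⟨fun i _ => hT₀ t ((le_max_left _ _).trans ht) i, (hT t t ⟨ht0, le_rfl⟩).1.2⟩

end

end Vale.Agent.P072
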