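import Mathlib

/-!
P072: a discrete Legendre potential, piecewise affine on the positive orthant, whose
slopes `p` stay at bounded distance from `log x` and satisfy
`p · v > 0 → log x · v ≥ K` for every `v` in a given finite set of integer vectors.
-/

namespace Vale.Agent.P072

open Finset

noncomputable section

variable {n : ℕ}

def dot (d : Fin n → ℤ) (q : Fin n → ℝ) : ℝ := ∑ i, (d i : ℝ) * q i

/-- tie vector between positions `i` and `j` -/
def tieVec (i j : Fin n) : Fin n → ℤ := Pi.single i 1 - Pi.single j 1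

def baseSet (V : Finset (Fin n → ℤ)) : Finset (Fin n → ℤ) :=
  (Finset.univ.biUnion fun σ : Equiv.Perm (Fin n) => V.image fun v => v ∘ σ) ∪
    ((Finset.univ : Finset (Fin n × Fin n)).filter
      fun p => (p.1 : ℕ) + 1 = p.2).image fun p => tieVec p.1 p.2

/-- elimination of coordinate `i` -/
def elimStep (S : Finset (Fin n → ℤ)) (i : Fin n) : Finset (Fin n → ℤ) :=
  S.filter (fun d => d i = 0) ∪ (S ×ˢ S).image fun p => p.1 i • p.2 - p.2 i • p.1

/-- after `j` eliminations -/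
def closureAux (V : Finset (Fin n → ℤ)) : ℕ → Finset (Fin n → ℤ)
  | 0 => baseSet V
  | j + 1 => if h : j < n then elimStep (closureAux V j) ⟨n - 1 - j, by omega⟩ else ∅

def Cset (V : Finset (Fin n → ℤ)) (k : ℕ) : Finset (Fin n → ℤ) := closureAux V (n - k)

lemma Cset_top (V : Finset (Fin n → ℤ)) : Cset V n = baseSet V := by
  simp [Cset, closureAux]

lemma Cset_step (V : Finset (Fin n → ℤ)) {k : ℕ} (hk : k < n) :
    Cset V k = elimStep (Cset V (k + 1)) ⟨k, hk⟩ := by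
  unfold Cset
  have h1 : n - k = (n - (k + 1)) + 1 := by omega
  rw [h1, closureAux, dif_pos (by omega)]
  congr 1
  ext
  simp only
  omega

lemma Cset_supp (V : Finset (Fin n → ℤ)) {k : ℕ} (hk : k ≤ n) :
    ∀ d ∈ Cset V k, ∀ i : Fin n, k ≤ (i : ℕ) → d i = 0 := by
  induction hk using Nat.decreasingInduction with
  | self => intro d _ i hi; exact absurd i.2 (by omega)
  | of_succ k hk ih =>
    intro d hd i hi
    rw [Cset_step V hk] at hd
    rcases mem_union.1 hd with h | h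
    · rcases eq_or_lt_of_le hi with e | e
      · have : i = ⟨k, hk⟩ := Fin.ext e.symm
        rw [this]; exact (mem_filter.1 h).2
      · exact ih d (mem_filter.1 h).1 i e
    · obtain ⟨p, hp, rfl⟩ := mem_image.1 h
      obtain ⟨h1, h2⟩ := mem_product.1 hp
      rcases eq_or_lt_of_le hi with e | e
      · have : i = ⟨k, hk⟩ := Fin.ext e.symm
        subst this
        simp only [Pi.sub_apply, Pi.smul_apply, smul_eq_mul]
        ring
      · simp [ih _ h1 i e, ih _ h2 i e]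

lemma tie_mem (V : Finset (Fin n → ℤ)) {i j : Fin n} (hij : (i : ℕ) + 1 = j)
    {k : ℕ} (hk : k ≤ n) (hjk : (j : ℕ) < k) : tieVec i j ∈ Cset V k := by
  induction hk using Nat.decreasingInduction with
  | self =>
    rw [Cset_top]
    refine mem_union_right _ (mem_image.2 ⟨(i, j), ?_, rfl⟩)
    simp [hij]
  | of_succ k hk ih =>
    rw [Cset_step V hk]
    refine mem_union_left _ (mem_filter.2 ⟨ih (by omega), ?_⟩)
    have h1 : (⟨k, hk⟩ : Fin n) ≠ i := by intro h; have := congrArg Fin.val h; simp at this; omega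
    have h2 : (⟨k, hk⟩ : Fin n) ≠ j := by intro h; have := congrArg Fin.val h; simp at this; omega
    simp [tieVec, h1, h2]

lemma dot_tie (i j : Fin n) (q : Fin n → ℝ) : dot (tieVec i j) q = q i - q j := by
  simp [dot, tieVec, sub_mul, Finset.sum_sub_distrib, Pi.single_apply]

def Nbd (V : Finset (Fin n → ℤ)) : ℝ :=
  ∑ k ∈ range (n + 1), ∑ d ∈ Cset V k, ∑ i, |(d i : ℝ)|

def kappa (V : Finset (Fin n → ℤ)) : ℝ := 4 + Nbd V

lemma Nbd_nonneg (V : Finset (Fin n → ℤ)) : 0 ≤ Nbd V :=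
  sum_nonneg fun _ _ => sum_nonneg fun _ _ => sum_nonneg fun _ _ => abs_nonneg _

lemma four_le_kappa (V : Finset (Fin n → ℤ)) : 4 ≤ kappa V := by
  have := Nbd_nonneg V; unfold kappa; linarith

lemma sum_abs_le_Nbd (V : Finset (Fin n → ℤ)) {k : ℕ} (hk : k ≤ n) {d : Fin n → ℤ}
    (hd : d ∈ Cset V k) : (∑ i, |(d i : ℝ)|) ≤ Nbd V := by
  refine le_trans ?_ (single_le_sum (f := fun k => ∑ d ∈ Cset V k, ∑ i, |(d i : ℝ)|)
    (fun j _ => sum_nonneg fun _ _ => sum_nonneg fun _ _ => abs_nonneg _)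
    (mem_range.2 (Nat.lt_succ_of_le hk)))
  exact single_le_sum (f := fun d : Fin n → ℤ => ∑ i, |(d i : ℝ)|)
    (fun _ _ => sum_nonneg fun _ _ => abs_nonneg _) hd

lemma coord_le_Nbd (V : Finset (Fin n → ℤ)) {k : ℕ} (hk : k ≤ n) {d : Fin n → ℤ}
    (hd : d ∈ Cset V k) (i : Fin n) : |(d i : ℝ)| ≤ Nbd V :=
  le_trans (single_le_sum (f := fun i => |(d i : ℝ)|) (fun _ _ => abs_nonneg _) (mem_univ i))
    (sum_abs_le_Nbd V hk hd)

def Rr (κ : ℝ) : ℕ → ℝ
  | 0 => κ
  | m + 1 => κ ^ 4 * (Rr κ m) ^ 2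

lemma Rr_ge {κ : ℝ} (h : 1 ≤ κ) : ∀ m, κ ≤ Rr κ m
  | 0 => le_rfl
  | m + 1 => by
    have := Rr_ge h m
    have h2 : (1 : ℝ) ≤ (Rr κ m) ^ 2 := one_le_pow₀ (h.trans this)
    calc κ ≤ κ ^ 4 := le_self_pow₀ h (by norm_num)
      _ = κ ^ 4 * 1 := (mul_one _).symm
      _ ≤ _ := mul_le_mul_of_nonneg_left h2 (by positivity)

lemma Rr_mono {κ : ℝ} (h : 1 ≤ κ) : Monotone (Rr κ) := by
  refine monotone_nat_of_le_succ fun m => ?_
  have h1 : 1 ≤ Rr κ m := h.trans (Rr_ge h m)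
  have h2 : (1 : ℝ) ≤ κ ^ 4 := one_le_pow₀ h
  show Rr κ m ≤ κ ^ 4 * (Rr κ m) ^ 2
  nlinarith

/-- position `k` of `q` sits on a crossing -/
def Snap (V : Finset (Fin n → ℤ)) (q : Fin n → ℝ) (k : ℕ) : Prop :=
  ∃ h : k < n, ∃ d ∈ Cset V (k + 1), d ⟨k, h⟩ ≠ 0 ∧ dot d q = 0

/-- the half window at scale `e` -/
def Xw (V : Finset (Fin n → ℤ)) (k : ℕ) (e : ℝ) : ℝ :=
  e * kappa V ^ 2 * Rr (kappa V) (n - (k + 1))

open Classical in
/-- error scale before position `k` -/
def err (V : Finset (Fin n → ℤ)) (e₀ : ℝ) (q : Fin n → ℝ) : ℕ → ℝ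
  | 0 => e₀
  | k + 1 => kappa V *
      (if Snap V q k then Xw V k (err V e₀ q k) else err V e₀ q k)

open Classical in
/-- bias at position `k` -/
def bias (V : Finset (Fin n → ℤ)) (e₀ : ℝ) (q : Fin n → ℝ) (k : ℕ) : ℝ :=
  if Snap V q k then Xw V k (err V e₀ q k) else err V e₀ q k

lemma err_succ (V : Finset (Fin n → ℤ)) (e₀ : ℝ) (q : Fin n → ℝ) (k : ℕ) :
    err V e₀ q (k + 1) = kappa V * bias V e₀ q k := by
  rw [err, bias]

def Valid (V : Finset (Fin n → ℤ)) (e₀ : ℝ) (q : Fin n → ℝ) : Prop :=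
  Antitone q ∧ ∀ k : Fin n, Snap V q k ∨
    ∀ d ∈ Cset V (k + 1), Xw V k (err V e₀ q k) / 2 * |(d k : ℝ)| ≤ |dot d q|

section basic

variable {V : Finset (Fin n → ℤ)} {e₀ : ℝ} (he : 1 ≤ e₀) (q : Fin n → ℝ)

lemma le_Xw {e : ℝ} (h : 0 ≤ e) (k : ℕ) : 16 * e ≤ Xw V k e := by
  have h1 := four_le_kappa V
  have h2 : (1 : ℝ) ≤ Rr (kappa V) (n - (k + 1)) :=
    le_trans (by linarith) (Rr_ge (by linarith : (1 : ℝ) ≤ kappa V) _)
  have h3 : (16 : ℝ) ≤ kappa V ^ 2 := by nlinarith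
  calc 16 * e = e * 16 * 1 := by ring
    _ ≤ _ := by unfold Xw; gcongr

include he

lemma err_ge : ∀ k, e₀ ≤ err V e₀ q k
  | 0 => le_rfl
  | k + 1 => by
    have h := err_ge k
    have h1 := four_le_kappa V
    have hb : err V e₀ q k ≤ bias V e₀ q k := by
      unfold bias; split
      · have := le_Xw (V := V) (show (0:ℝ) ≤ err V e₀ q k by linarith) k; linarith
      · exact le_rfl
    rw [err_succ]; nlinarith

lemma err_pos (k : ℕ) : 0 < err V e₀ q k := by
  have := err_ge (V := V) he q k; linarith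

lemma err_le_bias (k : ℕ) : err V e₀ q k ≤ bias V e₀ q k := by
  have := err_pos (V := V) he q k
  unfold bias; split
  · have := le_Xw (V := V) this.le k; linarith
  · exact le_rfl

lemma bias_le_Xw (k : ℕ) : bias V e₀ q k ≤ Xw V k (err V e₀ q k) := by
  have := err_pos (V := V) he q k
  unfold bias; split
  · exact le_rfl
  · have := le_Xw (V := V) this.le k; linarith

lemma bias_le_succ (k : ℕ) : bias V e₀ q k ≤ err V e₀ q (k + 1) := by
  have h1 := four_le_kappa V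
  have := err_pos (V := V) he q k
  have := err_le_bias (V := V) he q k
  rw [err_succ]; nlinarith

lemma err_mono : Monotone (err V e₀ q) :=
  monotone_nat_of_le_succ fun k => (err_le_bias he q k).trans (bias_le_succ he q k)

def Pbd (V : Finset (Fin n → ℤ)) : ℝ := kappa V ^ 3 * Rr (kappa V) n

omit he in
lemma one_le_Pbd : 1 ≤ Pbd V := by
  have h := four_le_kappa V
  have h1 : (1:ℝ) ≤ kappa V := by linarith
  exact one_le_mul_of_one_le_of_one_le (one_le_pow₀ h1) (h1.trans (Rr_ge h1 _))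

lemma err_le : ∀ k, err V e₀ q k ≤ e₀ * Pbd V ^ k
  | 0 => by simp [err]
  | k + 1 => by
    have h := err_le k
    have h1 := four_le_kappa V
    have hp := err_pos (V := V) he q k
    have hb : bias V e₀ q k ≤ err V e₀ q k * (kappa V ^ 2 * Rr (kappa V) n) := by
      refine (bias_le_Xw he q k).trans ?_
      unfold Xw
      rw [mul_assoc]
      refine mul_le_mul_of_nonneg_left ?_ hp.le
      exact mul_le_mul_of_nonneg_left (Rr_mono (by linarith) (Nat.sub_le _ _)) (by positivity)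
    calc err V e₀ q (k + 1) = kappa V * bias V e₀ q k := err_succ ..
      _ ≤ kappa V * (err V e₀ q k * (kappa V ^ 2 * Rr (kappa V) n)) := by gcongr
      _ = err V e₀ q k * Pbd V := by unfold Pbd; ring
      _ ≤ e₀ * Pbd V ^ k * Pbd V := by
        gcongr
        exact zero_le_one.trans one_le_Pbd
      _ = e₀ * Pbd V ^ (k + 1) := by ring

lemma bias_le (k : Fin n) : bias V e₀ q k ≤ e₀ * Pbd V ^ n := by
  refine (bias_le_succ he q k).trans ((err_le he q _).trans ?_)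
  refine mul_le_mul_of_nonneg_left (pow_le_pow_right₀ one_le_Pbd ?_) (by linarith)
  exact k.2

end basic

lemma dot_congr {V : Finset (Fin n → ℤ)} {k : ℕ} (hk : k ≤ n) {q q' : Fin n → ℝ}
    (h : ∀ i : Fin n, (i : ℕ) < k → q i = q' i) {d : Fin n → ℤ} (hd : d ∈ Cset V k) :
    dot d q = dot d q' := by
  refine sum_congr rfl fun i _ => ?_
  by_cases hi : (i : ℕ) < k
  · rw [h i hi]
  · simp [Cset_supp V hk d hd i (by omega)]

lemma snap_congr {V : Finset (Fin n → ℤ)} {k : ℕ} {q q' : Fin n → ℝ}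
    (h : ∀ i : Fin n, (i : ℕ) ≤ k → q i = q' i) : Snap V q k ↔ Snap V q' k := by
  unfold Snap
  constructor <;> rintro ⟨hk, d, hd, h1, h2⟩ <;> refine ⟨hk, d, hd, h1, ?_⟩
  · rwa [← dot_congr hk (fun i hi => h i (by omega)) hd]
  · rwa [dot_congr hk (fun i hi => h i (by omega)) hd]

lemma err_congr {V : Finset (Fin n → ℤ)} {e₀ : ℝ} {q q' : Fin n → ℝ} :
    ∀ k, (∀ i : Fin n, (i : ℕ) < k → q i = q' i) → err V e₀ q k = err V e₀ q' k
  | 0, _ => rfl
  | k + 1, h => by
    have h1 := err_congr (V := V) (e₀ := e₀) k fun i hi => h i (by omega)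
    have h2 := snap_congr (V := V) (k := k) fun i hi => h i (by omega)
    simp only [err]
    rw [h1]
    by_cases hs : Snap V q k
    · rw [if_pos hs, if_pos (h2.1 hs)]
    · rw [if_neg hs, if_neg (mt h2.2 hs)]

lemma bias_congr {V : Finset (Fin n → ℤ)} {e₀ : ℝ} {q q' : Fin n → ℝ} {k : ℕ}
    (h : ∀ i : Fin n, (i : ℕ) ≤ k → q i = q' i) : bias V e₀ q k = bias V e₀ q' k := by
  have h1 := err_congr (V := V) (e₀ := e₀) k fun i hi => h i hi.le
  have h2 := snap_congr (V := V) h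
  unfold bias
  rw [h1]
  by_cases hs : Snap V q k
  · rw [if_pos hs, if_pos (h2.1 hs)]
  · rw [if_neg hs, if_neg (mt h2.2 hs)]

lemma valid_zero (V : Finset (Fin n → ℤ)) (e₀ : ℝ) : Valid V e₀ (fun _ => 0) := by
  refine ⟨antitone_const, fun k => ?_⟩
  by_cases h : ∃ d ∈ Cset V ((k : ℕ) + 1), d k ≠ 0
  · obtain ⟨d, hd, hd'⟩ := h
    exact Or.inl ⟨k.2, d, hd, hd', by simp [dot]⟩
  · push Not at h
    exact Or.inr fun d hd => by simp [h d hd]

/-- replace the tail from `k` on by the constant `c` -/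
def tail (q : Fin n → ℝ) (k : ℕ) (c : ℝ) : Fin n → ℝ :=
  fun i => if (i : ℕ) < k then q i else c

lemma tail_lt {q : Fin n → ℝ} {k : ℕ} {c : ℝ} {i : Fin n} (h : (i : ℕ) < k) :
    tail q k c i = q i := if_pos h

lemma tail_ge {q : Fin n → ℝ} {k : ℕ} {c : ℝ} {i : Fin n} (h : k ≤ (i : ℕ)) :
    tail q k c i = c := if_neg (by omega)

lemma valid_tail {V : Finset (Fin n → ℤ)} {e₀ : ℝ} {q : Fin n → ℝ}
    (hq : Valid V e₀ q) {k : Fin n} {c : ℝ} (hc : ∀ i : Fin n, i < k → c ≤ q i)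
    (hk : Snap V (tail q k c) k ∨ ∀ d ∈ Cset V ((k : ℕ) + 1),
      Xw V k (err V e₀ (tail q k c) k) / 2 * |(d k : ℝ)| ≤ |dot d (tail q k c)|) :
    Valid V e₀ (tail q k c) := by
  refine ⟨fun i j hij => ?_, fun j => ?_⟩
  · by_cases hj : (j : ℕ) < k
    · rw [tail_lt hj, tail_lt (lt_of_le_of_lt (show (i:ℕ) ≤ j from hij) hj)]
      exact hq.1 hij
    · rw [tail_ge (not_lt.1 hj)]
      by_cases hi : (i : ℕ) < k
      · rw [tail_lt hi]; exact hc i hi
      · rw [tail_ge (not_lt.1 hi)]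
  · rcases lt_trichotomy (j : ℕ) (k : ℕ) with h | h | h
    · have e : ∀ i : Fin n, (i : ℕ) ≤ j → tail q k c i = q i := fun i hi => tail_lt (by omega)
      rcases hq.2 j with hs | hf
      · exact Or.inl ((snap_congr e).2 hs)
      · refine Or.inr fun d hd => ?_
        rw [err_congr (q' := q) _ (fun i hi => e i hi.le),
          dot_congr (q' := q) j.2 (fun i hi => e i (by omega)) hd]
        exact hf d hd
    · have : j = k := Fin.ext h
      subst this; exact hk
    · refine Or.inl ⟨j.2, tieVec ⟨j - 1, by omega⟩ j,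
        tie_mem V (by simp; omega) j.2 (by omega), ?_, ?_⟩
      · have hne : j ≠ (⟨(j:ℕ) - 1, by omega⟩ : Fin n) := by
          intro he; have := congrArg Fin.val he; simp at this; omega
        simp [tieVec, hne]
      · rw [dot_tie, tail_ge (by simp; omega), tail_ge (by omega), sub_self]

def pen (V : Finset (Fin n → ℤ)) (e₀ : ℝ) (q : Fin n → ℝ) : ℝ :=
  ∑ k : Fin n, Real.exp (q k - bias V e₀ q k)

def score (V : Finset (Fin n → ℤ)) (e₀ : ℝ) (σ : Equiv.Perm (Fin n)) (q x : Fin n → ℝ) : ℝ :=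
  ∑ k, q k * x (σ k) - pen V e₀ q

end

end Vale.Agent.P072
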